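import Vale.Agent.P078.Orth.Defs

/-!
The statement of random two-sided paving.
-/

namespace Vale.Agent.P078.Orth

open MKS Singular

/-- A random partition by fields with mean at most `6 / r` paves, for every outcome, a contraction
of the normaliser span with zero diagonal on both sides. -/
def RandomTwoSidedStatement : Prop :=
  ∀ (H : Type) [NormedAddCommGroup H] [InnerProductSpace ℂ H] [CompleteSpace H]
    (M A : VonNeumannAlgebra H) (e : H →L[ℂ] H) (τ : (H →L[ℂ] H) →ₗ[ℂ] ℂ),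
    IsMASA M A → e ∈ A → IsStarProjection e → IsTrace M e τ →
    ∀ y ∈ normSpan M A e, IsSelfAdjoint y → (-1 : ℝ) • e ≤ y → y ≤ e →
      ∀ (n : ℕ) (E : Fin n → (H →L[ℂ] H)), IsPartition A e E → (∀ i, E i * y * E i = 0) →
      ∀ (r : ℕ) (b u δ : ℝ), 0 < r → 1 < b → edge (-1) 0 b r < u → 0 < δ →
        ∃ (L : Type) (_ : Fintype L) (μ : L → ℝ)
          (P : (c : Cut A e) → (Fin c.n → L) → Fin r → (H →L[ℂ] H)),
          (∀ l, 0 ≤ μ l) ∧ ∑ l, μ l = 1 ∧ (∀ c ω, IsPartition A e (P c ω)) ∧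
          (∀ s, IsField M A e τ μ fun c ω => P c ω s) ∧
          (∀ c s, avg μ (fun ω => P c ω s) ≤ (6 / r : ℝ) • e) ∧
          ∀ c ω,
            (τ (excess (3 * u) (pinch (P c ω) y) * excess (3 * u) (pinch (P c ω) y))).re ≤ δ ∧
            (τ (excess (3 * u) (-pinch (P c ω) y) * excess (3 * u) (-pinch (P c ω) y))).re ≤ δ

end Vale.Agent.P078.Orth
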