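import Vale.Agent.P078.Orth.Random.Window

/-!
States read off from disjoint indicators, the state of a pattern around a separated cell, and the
representable choice of a tuple of options at every point of a cell.
-/

namespace Vale.Agent.P078.MKS.Op

open Singular Orth
open scoped Classical

variable {H : Type} [NormedAddCommGroup H] [InnerProductSpace ℂ H] [CompleteSpace H]
  {M A : VonNeumannAlgebra H} {e : H →L[ℂ] H} {τ : (H →L[ℂ] H) →ₗ[ℂ] ℂ} {r : ℕ}

/-- At most one of the elements is one at the point, the others vanish. -/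
def AtMostOne {J : Type} (x : J → (H →L[ℂ] H)) (η : Pt A) : Prop :=
  (∀ i, ev η (x i) = 0) ∨ ∃ j, ∀ i, ev η (x i) = if i = j then 1 else 0

/-- The state with weights `v j` where `x j` is one and uniform weights elsewhere. -/
noncomputable def rstate {J : Type} [Fintype J] (v : J → Fin r → ℝ) (x : J → (H →L[ℂ] H)) :
    St A r := fun η =>
  (fun s => 1 / r + ∑ j, (v j s - 1 / r) * (ev η (x j)).re, 1)

lemma rstate_snd {J : Type} [Fintype J] (v : J → Fin r → ℝ) (x : J → (H →L[ℂ] H)) (η : Pt A) :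
    (rstate v x η).2 = 1 := rfl

lemma rstate_val {J : Type} [Fintype J] {v : J → Fin r → ℝ} {x : J → (H →L[ℂ] H)} {η : Pt A}
    {j : J} (h : ∀ i, ev η (x i) = if i = j then 1 else 0) :
    rstate v x η = (v j, 1) := by
  refine Prod.ext (funext fun s => ?_) rfl
  simp only [rstate, h, apply_ite Complex.re, Complex.one_re, Complex.zero_re, mul_ite, mul_one,
    mul_zero, Finset.sum_ite_eq', Finset.mem_univ, if_true]
  ring

lemma rstate_zero {J : Type} [Fintype J] {v : J → Fin r → ℝ} {x : J → (H →L[ℂ] H)} {η : Pt A}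
    (h : ∀ i, ev η (x i) = 0) : rstate v x η = ((fun _ => (1 / r : ℝ)), 1) := by
  refine Prod.ext (funext fun s => ?_) rfl
  simp [rstate, h]

lemma isState_rstate (hr : 0 < r) {J : Type} [Fintype J] {v : J → Fin r → ℝ}
    {x : J → (H →L[ℂ] H)} (hv : ∀ j, (∀ s, 0 ≤ v j s) ∧ ∑ s, v j s = 1) (hx : ∀ j, x j ∈ A)
    (hone : ∀ η : Pt A, AtMostOne x η) : IsState A e (rstate v x : St A r) := by
  refine ⟨fun η => ?_, fun s => ?_, rep_const ((1 : ℝ) : ℂ)⟩
  · rcases hone η with h | ⟨j, h⟩
    · rw [rstate_zero h]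
      exact ⟨⟨fun _ => by positivity, by simp [hr.ne']⟩, zero_le_one, le_rfl⟩
    · rw [rstate_val h]
      exact ⟨hv j, zero_le_one, le_rfl⟩
  · have h := add_mem (rep_const (A := A) (e := e) ((1 / r : ℝ) : ℂ))
      (sum_mem fun j (_ : j ∈ Finset.univ) =>
        mul_mem (rep_const (A := A) (e := e) ((v j s - 1 / r : ℝ) : ℂ)) (rep_re (rep_ev (hx j))))
    convert h using 1
    funext η
    simp [rstate, Finset.sum_apply]

variable (hM : IsMASA M A) (he : IsPr A e) (D : Gen M A e)
include hM he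

omit hM he in
/-- The values of the part of a self-adjoint element above a level. -/
lemma ev_cfc_excess {y : H →L[ℂ] H} (hy : y ∈ A) (hs : IsSelfAdjoint y) (t : ℝ) (χ : Pt A) :
    (ev χ (cfc (fun x : ℝ => max (x - t) 0) y)).re = max ((ev χ y).re - t) 0 := by
  set a := cfc (fun x : ℝ => max (x - t) 0) y with ha
  set b := cfc (fun x : ℝ => max (t - x) 0) y with hb
  have haA : a ∈ A := cfc_mem hy _
  have hbA : b ∈ A := cfc_mem hy _
  have hab : b * a = 0 := by
    rw [ha, hb, ← cfc_mul _ _ y, ← cfc_const_zero ℝ y]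
    refine cfc_congr fun x _ => ?_
    rcases le_total x t with h | h <;> simp [h]
  have hsub : a - b = y - (t : ℂ) • 1 := by
    rw [ha, hb, ← cfc_sub _ _ y, Complex.coe_smul]
    rw [cfc_congr (g := fun x : ℝ => x - t) fun x _ => by
      rcases le_total x t with h | h <;> simp [h], cfc_sub _ _ y, cfc_id' ℝ y, cfc_const t y,
      Algebra.algebraMap_eq_smul_one]
  have hre : (ev χ a).re - (ev χ b).re = (ev χ y).re - t := by
    rw [← Complex.sub_re, ← ev_sub χ haA hbA, hsub, ev_sub χ hy (csmul_mem _ (one_mem A)),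
      ev_smul χ _ (one_mem A), ev_one, mul_one, Complex.sub_re, Complex.ofReal_re]
  have hz : ev χ b * ev χ a = 0 := by rw [← ev_mul χ hbA haA, hab, ev_zero]
  have ha0 := ev_nonneg χ haA (cfc_nonneg fun x _ => le_max_right _ _)
  have hb0 := ev_nonneg χ hbA (cfc_nonneg fun x _ => le_max_right _ _)
  rcases mul_eq_zero.1 hz with h | h
  · rw [h, Complex.zero_re, sub_zero] at hre
    rw [← hre, max_eq_left ha0]
  · rw [h, Complex.zero_re] at hre ⊢
    rw [max_eq_right (by linarith [hb0])]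

/-- Values given to the words from a separated cell make a state, uniform on the cell. -/
lemma exists_pattern_state (hr : 0 < r) {n : ℕ} {K : H →L[ℂ] H} (hK : IsPr A K)
    (hKe : K * e = K) (hKs : Sep D n K) (w : Fin (Fintype.card (Fin n → Fin D.N) + 1) → Fin r → ℝ)
    (hw : ∀ a, (∀ s, 0 ≤ w a s) ∧ ∑ s, w a s = 1) :
    ∃ S : St A r, IsState A e S ∧ (∀ η, (S η).2 = 1) ∧
      (∀ η, ev η K = 1 → (S η).1 = fun _ => (1 / r : ℝ)) ∧
      ∀ c a η, ev c K = 1 → ev η K ≠ 1 → Moves (words D n a) c η →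
        (∀ b < a, ¬ Moves (words D n b) c η) → (S η).1 = w a := by
  have hn := words_nor hM he D n
  choose sl hsl hsl' using sel_mem hM he D n
  let y : Fin (Fintype.card (Fin n → Fin D.N) + 1) → (H →L[ℂ] H) := fun a =>
    words D n a * (K * sl a) * star (words D n a)
  have hyA : ∀ a, y a ∈ A := fun a => ((hn a).2.2 _ (mul_mem hK.1 (hsl a))).1
  let x : Fin (Fintype.card (Fin n → Fin D.N) + 1) → (H →L[ℂ] H) := fun a => (1 - K) * y a
  have hxA : ∀ a, x a ∈ A := fun a => mul_mem (sub_mem (one_mem A) hK.1) (hyA a)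
  have hxK : ∀ η a, ev η (x a) = (1 - ev η K) * ev η (y a) := fun η a => by
    rw [ev_mul η (sub_mem (one_mem A) hK.1) (hyA a), ev_sub η (one_mem A) hK.1, ev_one]
  have hce : ∀ c : Pt A, ev c K = 1 → ev c e = 1 := fun c hc => by
    have := congrArg (ev c) hKe
    rwa [ev_mul c hK.1 he.1, hc, one_mul] at this
  have hback : ∀ (c : Pt A) a (η : Pt A), ev c K = 1 → Moves (words D n a) c η →
      (∀ b < a, ¬ Moves (words D n b) c η) → ev η (y a) = 1 := by
    intro c a η hc hm hmin
    have h := (moves_star hM (hn a) hm).2 _ (mul_mem hK.1 (hsl a))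
    rw [star_star] at h
    rw [← h, ev_mul c hK.1 (hsl a), hc, one_mul, ← hsl' a c (hce c hc),
      sel_eq hM he D n a c, if_pos ⟨η, hm, hmin⟩]
  have hwhere : ∀ (η : Pt A) a, ev η (y a) ≠ 0 → ∃ c, ev c K = 1 ∧ Moves (words D n a) c η ∧
      ∀ b < a, ¬ Moves (words D n b) c η := by
    intro η a h
    have hd : ev η (star (star (words D n a)) * star (words D n a)) ≠ 0 := fun h0 => h (by
      simpa only [y, star_star] using
        conj_of_not_dom (nor_star (hn a)) (mul_mem hK.1 (hsl a)) h0)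
    obtain ⟨c, hc⟩ := exists_moves hM (nor_star (hn a))
      ((ev_proj η (nor_dom (nor_star (hn a)))).resolve_left hd)
    have hv := hc.2 _ (mul_mem hK.1 (hsl a))
    rw [star_star] at hv
    rw [← hv, ev_mul c hK.1 (hsl a)] at h
    have hc1 : ev c K = 1 := (ev_proj c hK).resolve_left fun h0 => h (by rw [h0, zero_mul])
    have hm := moves_star hM (nor_star (hn a)) hc
    rw [star_star] at hm
    rw [← hsl' a c (hce c hc1), sel_eq hM he D n a c] at h
    split_ifs at h with hex
    · obtain ⟨η', hη', hmin⟩ := hex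
      rw [moves_unique hη' hm] at hmin
      exact ⟨c, hc1, hm, hmin⟩
    · exact absurd (mul_zero _) h
  have hone : ∀ (η : Pt A) a, ev η (y a) ≠ 0 → ∀ b, ev η (y b) = if b = a then 1 else 0 := by
    intro η a h b
    obtain ⟨c, hc, hm, hmin⟩ := hwhere η a h
    split_ifs with hba
    · rw [hba]; exact hback c a η hc hm hmin
    · by_contra hb
      obtain ⟨c', hc', hm', hmin'⟩ := hwhere η b hb
      obtain rfl : c' = c := sep_apply hM he D hKs hc hc' (words_reach hM he D n a hm)
        (reaches_symm hM he D (words_reach hM he D n b hm'))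
      rcases lt_or_gt_of_ne hba with h1 | h1
      exacts [hmin b h1 hm', hmin' a h1 hm]
  refine ⟨rstate w x, isState_rstate hr hw hxA fun η => ?_, fun η => rfl, fun η hη => ?_,
    fun c a η hc hη hm hmin => ?_⟩
  · by_cases hall : ∀ i, ev η (x i) = 0
    · exact Or.inl hall
    push Not at hall
    obtain ⟨a, ha⟩ := hall
    rw [hxK] at ha
    obtain ⟨h1, h2⟩ := mul_ne_zero_iff.1 ha
    have hK0 : ev η K = 0 := (ev_proj η hK).resolve_right fun h => h1 (by rw [h, sub_self])
    exact Or.inr ⟨a, fun i => by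
      rw [hxK, hK0, sub_zero, one_mul, hone η a h2 i]; split_ifs <;> rfl⟩
  · rw [rstate_zero fun i => by rw [hxK, hη, sub_self, zero_mul]]
  · have h1 := hback c a η hc hm hmin
    have hK0 : ev η K = 0 := (ev_proj η hK).resolve_right hη
    rw [rstate_val (j := a) fun i => by
      rw [hxK, hK0, sub_zero, one_mul, hone η a (by rw [h1]; exact one_ne_zero) i]
      split_ifs <;> rfl]

variable (hτ : IsTrace M e τ) (hsa : IsSelfAdjoint D.op) (hl : (-1 : ℝ) • e ≤ D.op)
  (hu : D.op ≤ e)
include hτ hsa hl hu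

/-- On a separated cell where a state is uniform, finitely many tuples of options suffice, chosen
representably, for every option of the tuple to raise the window sums by at most `8 η + ε`. -/
lemma exists_select_many (hr : 0 < r) {n : ℕ} {q : Polynomial ℝ} (hqn : q.natDegree ≤ n)
    {t g η ε : ℝ} (hg : 0 < g) (hε : 0 < ε)
    (hq : ∀ x ∈ Set.Icc (-1 : ℝ) 1, |(Polynomial.derivative q).eval x - deriv (soft t g) x| ≤ η)
    {K : H →L[ℂ] H} (hK : IsPr A K) (hKe : K * e = K) (hKs : Sep D n K) {S : St A r}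
    (hS : IsState A e S) (hsc : ∀ χ, (S χ).2 = 1)
    (hu0 : ∀ χ, ev χ K = 1 → (S χ).1 = fun _ => (1 / r : ℝ)) :
    ∃ (κ : Type) (_ : Fintype κ) (T : κ → Fin (r * (r + 1)) → Fin r → ℝ)
      (a : κ → (H →L[ℂ] H)),
      (∀ i l, ((∀ s, 0 ≤ T i l s) ∧ ∑ s, T i l s = 1) ∧
        ({s | T i l s ≠ 0} : Finset (Fin r)).card ≤ 3) ∧
      (∀ i s, ∑ l, T i l s ≤ 2 * (r + 1)) ∧ (∀ i, a i ∈ A ∧ e * a i * e = a i) ∧
      (∀ c : Pt A, ev c K ≠ 1 → ∀ i, ev c (a i) = 0) ∧
      ∀ c : Pt A, ev c K = 1 → ∃ i, (∀ j, ev c (a j) = if j = i then 1 else 0) ∧ ∀ l,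
        ∑ u, both q D.a D.g c (D.ball c (2 * n)) (rep M c) (Function.update S c (T i l, 1)) u ≤
          ∑ u, both q D.a D.g c (D.ball c (2 * n)) (rep M c) S u + (8 * η + ε) := by
  let P : (Fin (r * (r + 1)) → Fin r → ℝ) → Prop := fun T =>
    (∀ l, ((∀ s, 0 ≤ T l s) ∧ ∑ s, T l s = 1) ∧
      ({s | T l s ≠ 0} : Finset (Fin r)).card ≤ 3) ∧ ∀ s, ∑ l, T l s ≤ 2 * (r + 1)
  let S' : {T // P T} → Fin (r * (r + 1)) → St A r := fun T l χ =>
    if ev χ K = 1 then (T.1 l, 1) else S χ
  have hS' : ∀ T l, IsState A e (S' T l) := fun T l =>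
    isState_ite hK hS ⟨(T.2.1 l).1, zero_le_one, le_rfl⟩
  choose g' hgA _ _ hgval using fun T l => change_on_cell hM he hτ D hqn hr rep_pot_ok hK hKs hS
    (hS' T l) fun χ hχ => if_neg hχ
  have hdiff : ∀ T l c, ev c K = 1 → (ev c (g' T l)).re =
      ∑ u, both q D.a D.g c (D.ball c (2 * n)) (rep M c) (Function.update S c (T.1 l, 1)) u -
        ∑ u, both q D.a D.g c (D.ball c (2 * n)) (rep M c) S u := by
    intro T l c hc
    have hoff : ∀ ζ, D.Reaches (2 * n) c ζ → ζ ≠ c → S' T l ζ = S ζ := fun ζ hζ hne =>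
      if_neg fun hu => hne (hKs c ζ hc hu hζ)
    rw [hgval T l c hc, ← window_diff hM he D hS.1 (hS' T l).1 hqn hoff]
    have heq : ∀ u : D.ball c (2 * n), S' T l u = Function.update S c (T.1 l, 1) u := fun u => by
      by_cases huc : (u : Pt A) = c
      · simp only [S', huc, hc, if_true, Function.update_self]
      · rw [Function.update_of_ne huc]
        exact hoff u ((mem_ball D).1 u.2) huc
    simp only [fun u => both_congr_fun q D.a D.g c (rep M c) heq u]
  let y : {T // P T} → Fin (r * (r + 1)) → (H →L[ℂ] H) := fun T l =>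
    (1 / 2 : ℂ) • (g' T l + star (g' T l))
  have hy : ∀ T l, y T l ∈ A := fun T l =>
    csmul_mem _ (add_mem (hgA T l) (star_mem (hgA T l)))
  have hyval : ∀ T l (c : Pt A), (ev c (y T l)).re = (ev c (g' T l)).re := fun T l c => by
    rw [ev_smul c _ (add_mem (hgA T l) (star_mem (hgA T l))),
      ev_add c (hgA T l) (star_mem (hgA T l)), ev_star c (hgA T l)]
    simp
    ring
  let G : {T // P T} → (H →L[ℂ] H) := fun T =>
    ∑ l, cfc (fun x : ℝ => max (x - 8 * η) 0) (y T l)
  have hG : ∀ T, G T ∈ A := fun T => sum_mem fun l _ => cfc_mem (hy T l) _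
  have hGval : ∀ T (c : Pt A), (ev c (G T)).re = ∑ l, max ((ev c (g' T l)).re - 8 * η) 0 := by
    intro T c
    rw [ev_sum c _ _ fun l _ => cfc_mem (hy T l) _, Complex.re_sum]
    refine Finset.sum_congr rfl fun l _ => ?_
    have hys : IsSelfAdjoint (y T l) := by simp [y, IsSelfAdjoint, star_smul, add_comm]
    rw [← hyval, ev_cfc_excess (hy T l) hys]
  have hgood : ∀ c : Pt A, ev c K = 1 → ∃ T, (ev c (G T)).re < ε := by
    intro c hc
    have hce : ev c e = 1 := by
      have := congrArg (ev c) hKe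
      rwa [ev_mul c hK.1 he.1, hc, one_mul] at this
    obtain ⟨T, hT, hmean, hmove⟩ := step_many hM he (frame_ball hM he D c (2 * n)) hsa hl hu hr hg
      hq hS.1 hsc ⟨c, (mem_ball D).2 (reaches_self hM he D hce _)⟩ (hu0 c hc)
    refine ⟨⟨T, hT, hmean⟩, ?_⟩
    rw [hGval]
    refine lt_of_le_of_lt (le_of_eq (Finset.sum_eq_zero fun l _ => max_eq_right ?_)) hε
    rw [hdiff _ l c hc]
    linarith [hmove l]
  obtain ⟨F, hF⟩ := exists_finite_small hM.2.1 hG hK.1 ε hgood
  obtain ⟨pick, hpn, hps, hprep⟩ := exists_selection (e := e) hM (G := fun i : F => G i.1)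
    (fun i => hG _) hK (θ := ε) fun c hc => by
      obtain ⟨i, hi, hlt⟩ := hF c hc
      exact ⟨⟨i, hi⟩, hlt⟩
  have hind : ∀ i : F, ∃ a ∈ A, ∀ c : Pt A, ev c e = 1 →
      (pick c).elim 0 (fun j => if j = i then (1 : ℂ) else 0) = ev c a := fun i => by
    exact hprep (fun j => if j = i then 1 else 0) (fun _ => 0) (rep_const 0)
  choose a₀ ha₀ ha₀' using hind
  have hval : ∀ (i : F) (c : Pt A), ev c (a₀ i * K) =
      if ev c K = 1 then (pick c).elim 0 (fun j => if j = i then (1 : ℂ) else 0) else 0 := by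
    intro i c
    rw [ev_mul c (ha₀ i) hK.1]
    split_ifs with hc
    · have hce : ev c e = 1 := by
        have := congrArg (ev c) hKe
        rwa [ev_mul c hK.1 he.1, hc, one_mul] at this
      rw [hc, mul_one, ha₀' i c hce]
    · rw [(ev_proj c hK).resolve_right hc, mul_zero]
  refine ⟨F, inferInstance, fun i => i.1.1, fun i => a₀ i * K, fun i => i.1.2.1, fun i => i.1.2.2,
    fun i => ⟨mul_mem (ha₀ i) hK.1, ?_⟩, fun c hc i => by rw [hval, if_neg hc], fun c hc => ?_⟩
  · rw [mul_assoc e, mul_assoc (a₀ i), hKe, ← mul_assoc, hM.2.1 e he.1 _ (ha₀ i), mul_assoc,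
      hM.2.1 e he.1 K hK.1, hKe]
  · obtain ⟨i, hi, hle⟩ := hps c hc
    refine ⟨i, fun j => ?_, fun l => ?_⟩
    · rw [hval, if_pos hc, hi, Option.elim_some]
      simp [eq_comm]
    · rw [hGval] at hle
      have h := (Finset.single_le_sum (fun l _ => le_max_right ((ev c (g' i.1 l)).re - 8 * η) 0)
        (Finset.mem_univ l)).trans hle
      have h2 := le_max_left ((ev c (g' i.1 l)).re - 8 * η) 0
      rw [hdiff i.1 l c hc] at h h2
      linarith

end Vale.Agent.P078.MKS.Op
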