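import Vale.Agent.P078.Orth.Random.Polys
import Vale.Agent.P078.Orth.Random.Select

/-!
One stage of the random pass: on one separated cell every point is given, independently by the
labels of the cut, one of the options chosen for the pattern around it.
-/

namespace Vale.Agent.P078.MKS.Op

open Singular
open Orth (Cut Rand IsPoly avg vee cell cst)
open scoped Classical

variable {H : Type} [NormedAddCommGroup H] [InnerProductSpace ℂ H] [CompleteSpace H]
  {M A : VonNeumannAlgebra H} {e : H →L[ℂ] H} {τ : (H →L[ℂ] H) →ₗ[ℂ] ℂ}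

/-- Equal weights. -/
noncomputable def unif (L : Type) [Fintype L] : L → ℝ := fun _ => 1 / Fintype.card L

lemma avg_unif {L : Type} [Fintype L] {n : ℕ} (f : (Fin n → L) → ℝ) :
    avg (unif L) f = (1 / Fintype.card L : ℝ) ^ n * ∑ ω, f ω := by
  simp [avg, unif, Finset.mul_sum]

/-- A random colouring in progress: finitely many weights, each on a random piece of `e`. -/
structure Draft (M A : VonNeumannAlgebra H) (e : H →L[ℂ] H) (L : Type) [Fintype L] (r : ℕ) where
  /-- The index type of the weights. -/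
  J : Type
  [fin : Fintype J]
  /-- The index of the uniform weights. -/
  base : J
  /-- The weights. -/
  v : J → Fin r → ℝ
  /-- The pieces. -/
  E : J → Rand A e L
  prob : ∀ j, (∀ s, 0 ≤ v j s) ∧ ∑ s, v j s = 1
  small : ∀ j, j ≠ base → ({s | v j s ≠ 0} : Finset (Fin r)).card ≤ 3
  v_base : v base = fun _ => (1 / r : ℝ)
  poly : ∀ j, IsPoly M (E j)
  off : ∀ c ω j (η : Pt A), ev η e = 0 → ev η (E j c ω) = 0
  dec : ∀ c ω (η : Pt A), ev η e = 1 → ∃ j, ∀ i, ev η (E i c ω) = if i = j then 1 else 0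
  mean : ∀ c (η : Pt A) t, ev η e = 1 →
    avg (unif L) (fun ω => ∑ j, v j t * (ev η (E j c ω)).re) ≤ 2 / r

attribute [instance] Draft.fin

/-- The state of a draft for given labels. -/
noncomputable def Draft.state {L : Type} [Fintype L] {r : ℕ} (P : Draft M A e L r) (c : Cut A e)
    (ω : Fin c.n → L) : St A r :=
  rstate P.v fun j => P.E j c ω

lemma Draft.isState {L : Type} [Fintype L] {r : ℕ} (hr : 0 < r) (he : IsPr A e)
    (P : Draft M A e L r) (c : Cut A e) (ω : Fin c.n → L) : IsState A e (P.state c ω) := by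
  refine isState_rstate hr P.prob (fun j => (P.poly j).mem c ω) fun η => ?_
  rcases ev_proj η he with h | h
  · exact Or.inl fun j => P.off c ω j η h
  · exact Or.inr (P.dec c ω η h)

lemma Draft.state_base {L : Type} [Fintype L] {r : ℕ} (P : Draft M A e L r) {c : Cut A e}
    {ω : Fin c.n → L} {η : Pt A} (hη : ev η e = 1) (h : ev η (P.E P.base c ω) = 1) :
    P.state c ω η = ((fun _ => (1 / r : ℝ)), 1) := by
  obtain ⟨j, hj⟩ := P.dec c ω η hη
  have hb : P.base = j := by
    by_contra hne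
    rw [hj, if_neg hne] at h
    exact zero_ne_one h
  rw [Draft.state, rstate_val hj, ← hb, P.v_base]

section Labels

variable {nc m : ℕ}

/-- The event that the label at stage `k` of the cell of a point is `l`. -/
noncomputable def lab (k : Fin nc) (l : Fin m) : Rand A e (Fin nc → Fin m) := fun c ω =>
  vee e (fun x => if x k = l then (1 : ℝ) else 0) c ω

lemma lab_eq (he : IsPr A e) (k : Fin nc) (l : Fin m) (c : Cut A e)
    (ω : Fin c.n → Fin nc → Fin m) :
    lab k l c ω = ∑ i, (if ω i k = l then (1 : ℝ) else 0) • c.q i := by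
  simp only [lab, vee, cell, he.2.isSelfAdjoint.star_eq, (c.part.mul_e _).1, (c.part.mul_e _).2]

lemma lab_mem (he : IsPr A e) (k : Fin nc) (l : Fin m) (c : Cut A e)
    (ω : Fin c.n → Fin nc → Fin m) : lab k l c ω ∈ A := by
  rw [lab_eq he]
  exact sum_mem fun i _ => by rw [← Complex.coe_smul]; exact csmul_mem _ (c.part.1 i).1

lemma ev_lab (he : IsPr A e) (k : Fin nc) (c : Cut A e) (ω : Fin c.n → Fin nc → Fin m) {η : Pt A}
    (hη : ev η e = 1) : ∃ l₀, ∀ l, ev η (lab k l c ω) = if l = l₀ then 1 else 0 := by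
  obtain ⟨i₀, hi₀⟩ := ev_partition η c.part hη
  refine ⟨ω i₀ k, fun l => ?_⟩
  rw [lab_eq he, ev_sum η _ _ fun i _ => by
    rw [← Complex.coe_smul]; exact csmul_mem _ (c.part.1 i).1, Finset.sum_eq_single i₀]
  · rw [← Complex.coe_smul, ev_smul η _ (c.part.1 i₀).1, hi₀, mul_one]
    split_ifs with h1 h2 <;> simp_all
  · intro i _ hi
    have := congrArg (ev η) (c.part.2.1 i i₀ hi)
    rw [ev_mul η (c.part.1 i).1 (c.part.1 i₀).1, hi₀, mul_one, ev_zero] at this
    rw [← Complex.coe_smul, ev_smul η _ (c.part.1 i).1, this, mul_zero]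
  · exact fun h => absurd (Finset.mem_univ i₀) h

/-- Exchanging two values of the labels at stage `k`. -/
def exch {n : ℕ} (k : Fin nc) (l l' : Fin m) : Equiv.Perm (Fin n → Fin nc → Fin m) :=
  Function.Involutive.toPerm (fun ω i => Function.update (ω i) k (Equiv.swap l l' (ω i k)))
    fun ω => funext fun i => funext fun j => by
      rcases eq_or_ne j k with rfl | hj
      · simp
      · simp [hj]

lemma exch_apply {n : ℕ} (k : Fin nc) (l l' : Fin m) (ω : Fin n → Fin nc → Fin m) (i : Fin n) :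
    exch k l l' ω i = Function.update (ω i) k (Equiv.swap l l' (ω i k)) := rfl

lemma lab_exch (k : Fin nc) (l l' : Fin m) (c : Cut A e) (ω : Fin c.n → Fin nc → Fin m) :
    lab k l c (exch k l l' ω) = lab k l' c ω := by
  simp only [lab, vee, exch_apply, Function.update_self,
    Equiv.swap_apply_eq_iff, Equiv.swap_apply_left]

/-- A quantity blind to stage `k` splits evenly over the labels at stage `k`. -/
lemma sum_lab (he : IsPr A e) (k : Fin nc) (c : Cut A e) {η : Pt A} (hη : ev η e = 1)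
    (g : (Fin c.n → Fin nc → Fin m) → ℝ) (hg : ∀ l l' ω, g (exch k l l' ω) = g ω) (l : Fin m) :
    (m : ℝ) * ∑ ω, (ev η (lab k l c ω)).re * g ω = ∑ ω, g ω := by
  have h : ∀ l', ∑ ω, (ev η (lab k l' c ω)).re * g ω = ∑ ω, (ev η (lab k l c ω)).re * g ω :=
    fun l' => by
      rw [← Equiv.sum_comp (exch k l' l) fun ω => (ev η (lab k l' c ω)).re * g ω]
      simp only [hg, lab_exch]
  calc (m : ℝ) * ∑ ω, (ev η (lab k l c ω)).re * g ω
      = ∑ l', ∑ ω, (ev η (lab k l' c ω)).re * g ω := by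
        simp [Finset.sum_congr rfl fun l' _ => h l']
    _ = ∑ ω, g ω := by
        rw [Finset.sum_comm]
        refine Finset.sum_congr rfl fun ω _ => ?_
        obtain ⟨l₀, hl₀⟩ := ev_lab he k c ω hη
        simp [hl₀, apply_ite Complex.re]

end Labels

section Lists

variable {L : Type}

lemma ev_list {c : Cut A e} {ω : Fin c.n → L} (η : Pt A) :
    ∀ l : List (Rand A e L), (∀ F ∈ l, F c ω ∈ A) →
      l.prod c ω ∈ A ∧ ev η (l.prod c ω) = (l.map fun F => ev η (F c ω)).prod := by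
  intro l
  induction l with
  | nil => intro _; exact ⟨by simp, by simp [ev_one]⟩
  | cons F l ih =>
    intro h
    obtain ⟨h1, h2⟩ := ih fun G hG => h G (List.mem_cons_of_mem F hG)
    rw [List.prod_cons, List.map_cons, List.prod_cons]
    refine ⟨mul_mem (h F List.mem_cons_self) h1, ?_⟩
    show ev η (F c ω * l.prod c ω) = _
    rw [ev_mul η (h F List.mem_cons_self) h1, h2]

lemma list_congr {c : Cut A e} {ω ω' : Fin c.n → L} :
    ∀ l : List (Rand A e L), (∀ F ∈ l, F c ω = F c ω') → l.prod c ω = l.prod c ω' := by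
  intro l
  induction l with
  | nil => intro _; simp
  | cons F l ih =>
    intro h
    simp only [List.prod_cons, Pi.mul_apply, h F List.mem_cons_self,
      ih fun G hG => h G (List.mem_cons_of_mem F hG)]

end Lists

section Mean

variable {nc r : ℕ}

/-- Equally likely labels choosing among options with nearly uniform mean keep the mean small. -/
lemma mean_le (he : IsPr A e) (hr : 0 < r) (k : Fin nc) (c : Cut A e) {η : Pt A} (hη : ev η e = 1)
    {I : Type} [Fintype I] (g : I → (Fin c.n → Fin nc → Fin (r * (r + 1))) → ℝ)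
    (hg : ∀ i l l' ω, g i (exch k l l' ω) = g i ω) (hg0 : ∀ i ω, 0 ≤ g i ω)
    (hg1 : ∀ ω, ∑ i, g i ω = 1) (T : I → Fin (r * (r + 1)) → ℝ)
    (hT : ∀ i, ∑ l, T i l ≤ 2 * (r + 1)) :
    avg (unif (Fin nc → Fin (r * (r + 1)))) (fun ω =>
      ∑ i, ∑ l, (ev η (lab k l c ω)).re * g i ω * T i l) ≤ 2 / r := by
  have hm : (0 : ℝ) < (r * (r + 1) : ℕ) := by exact_mod_cast Nat.mul_pos hr r.succ_pos
  rw [avg_unif, Finset.sum_comm]
  have h1 : ∀ i, ∑ ω, ∑ l, (ev η (lab k l c ω)).re * g i ω * T i l ≤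
      (2 / r : ℝ) * ∑ ω, g i ω := fun i => by
    rw [Finset.sum_comm]
    have h2 : ∀ l, ∑ ω, (ev η (lab k l c ω)).re * g i ω =
        (∑ ω, g i ω) / (r * (r + 1) : ℕ) := fun l => by
      rw [eq_div_iff hm.ne', mul_comm]
      exact sum_lab he k c hη (g i) (hg i) l
    simp only [← Finset.sum_mul, h2, ← Finset.mul_sum]
    refine (mul_le_mul_of_nonneg_left (hT i)
      (div_nonneg (Finset.sum_nonneg fun ω _ => hg0 i ω) hm.le)).trans (le_of_eq ?_)
    push_cast
    field_simp
  refine (mul_le_mul_of_nonneg_left (Finset.sum_le_sum fun i _ => h1 i) (by positivity)).trans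
    (le_of_eq ?_)
  rw [← Finset.mul_sum, Finset.sum_comm]
  simp only [hg1, Finset.sum_const, Finset.card_univ, Fintype.card_pi, Finset.prod_const,
    Fintype.card_fin, nsmul_eq_mul, Nat.cast_pow, mul_one, one_div, inv_pow]
  rw [mul_left_comm, inv_mul_cancel₀ (pow_ne_zero _ (pow_ne_zero _ hm.ne')), mul_one]

end Mean

variable (hM : IsMASA M A) (he : IsPr A e)
include hM he

/-- The indicators of the indices around a point, seen along the words. -/
lemma exists_patterns {L : Type} [Fintype L] {r : ℕ} (D : Gen M A e) (n : ℕ)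
    (P : Draft M A e L r) :
    ∃ Pat : (Fin (Fintype.card (Fin n → Fin D.N) + 1) → P.J) → Rand A e L,
      (∀ π, IsPoly M (Pat π)) ∧
      (∀ c ω (η : Pt A), ev η e = 1 → ∃ π₀,
        (∀ π, ev η (Pat π c ω) = if π = π₀ then 1 else 0) ∧
        ∀ a u, Moves (words D n a) η u → ∀ i, ev u (P.E i c ω) = if i = π₀ a then 1 else 0) ∧
      ∀ π c ω ω', (∀ i, P.E i c ω = P.E i c ω') → Pat π c ω = Pat π c ω' := by
  have hee := he.2.isIdempotentElem.eq
  let W := words D n
  have hn : ∀ a, W a ∈ normaliser M A := words_nor hM he D n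
  have hWc : ∀ a, Cor M e (W a) := fun a => ⟨(hn a).1, by
    refine Fin.cases ?_ (fun i => ?_) a
    · simp [W, words, hee]
    · simpa [W, words] using word_corner D he n _⟩
  let Q : Fin (Fintype.card (Fin n → Fin D.N) + 1) → P.J → Rand A e L := fun a j =>
    (fun c ω => star (W a) * P.E j c ω * W a : Rand A e L) +
      if j = P.base then cst (e - star (W a) * W a) else 0
  have hdA : ∀ a, star (W a) * W a ∈ A := fun a => (nor_dom (hn a)).1
  have hQp : ∀ a j, IsPoly M (Q a j) := fun a j => by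
    refine ((P.poly j).conj hM he (hn a) (hWc a).2).add ?_
    split_ifs
    · refine Orth.isPoly_cst (sub_mem he.1 (hdA a)) ?_
      rw [mul_sub, sub_mul, hee, hee, (((hWc a).star' he.2).mul he.2 (hWc a)).2]
    · exact Orth.isPoly_zero
  have hQv : ∀ c ω (η : Pt A), ev η e = 1 → ∀ a, ∃ j,
      (∀ i, ev η (Q a i c ω) = if i = j then 1 else 0) ∧
      ∀ u, Moves (W a) η u → ∀ i, ev η (Q a i c ω) = ev u (P.E i c ω) := by
    intro c ω η hη a
    have hE : ∀ i, star (W a) * P.E i c ω * W a ∈ A := fun i =>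
      ((hn a).2.2 _ ((P.poly i).mem c ω)).2
    have hQ : ∀ i, ev η (Q a i c ω) = ev η (star (W a) * P.E i c ω * W a) +
        if i = P.base then 1 - ev η (star (W a) * W a) else 0 := fun i => by
      simp only [Q, Pi.add_apply]
      split_ifs with h
      · show ev η (_ + (e - star (W a) * W a)) = _
        rw [ev_add η (hE i) (sub_mem he.1 (hdA a)), ev_sub η he.1 (hdA a), hη]
      · show ev η (_ + 0) = _
        rw [add_zero, add_zero]
    rcases ev_proj η (nor_dom (hn a)) with h0 | h1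
    · refine ⟨P.base, fun i => ?_, fun u hu => absurd (hu.1.symm.trans h0) one_ne_zero⟩
      rw [hQ, conj_of_not_dom (hn a) ((P.poly i).mem c ω) h0, h0, sub_zero, zero_add]
    · obtain ⟨u, hu⟩ := exists_moves hM (hn a) h1
      obtain ⟨j, hj⟩ := P.dec c ω u (moves_corner hM he (hn a) (hWc a).2 hu).2
      have hval : ∀ i, ev η (Q a i c ω) = ev u (P.E i c ω) := fun i => by
        rw [hQ, h1, sub_self, ite_self, add_zero, ← hu.2 _ ((P.poly i).mem c ω)]
      exact ⟨j, fun i => (hval i).trans (hj i), fun u' hu' => by rwa [moves_unique hu' hu]⟩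
  refine ⟨fun π => cst e * (List.ofFn fun a => Q a (π a)).prod,
    fun π => IsPoly.mul_list hM he _ (Orth.isPoly_cst he.1 (by rw [hee, hee])) fun F hF => by
      obtain ⟨a, rfl⟩ := List.mem_ofFn.1 hF
      exact hQp a (π a), fun c ω η hη => ?_, fun π c ω ω' h => ?_⟩
  · choose π₀ hπ₀ hπ₀' using hQv c ω η hη
    refine ⟨π₀, fun π => ?_, fun a u hu i => (hπ₀' a u hu i).symm.trans (hπ₀ a i)⟩
    obtain ⟨h1, h2⟩ := ev_list η (List.ofFn fun a => Q a (π a)) (c := c) (ω := ω) fun F hF => by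
      obtain ⟨a, rfl⟩ := List.mem_ofFn.1 hF
      exact (hQp a (π a)).mem c ω
    show ev η (e * (List.ofFn fun a => Q a (π a)).prod c ω) = _
    rw [ev_mul η he.1 h1, hη, one_mul, h2, List.map_ofFn, List.prod_ofFn]
    simp only [Function.comp_apply, hπ₀]
    by_cases hp : π = π₀
    · rw [if_pos hp]
      exact Finset.prod_eq_one fun b _ => if_pos (congrFun hp b)
    · rw [if_neg hp]
      obtain ⟨b, hb⟩ := Function.ne_iff.1 hp
      exact Finset.prod_eq_zero (Finset.mem_univ b) (if_neg hb)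
  · refine congrArg (fun z => e * z) (list_congr _ fun F hF => ?_)
    obtain ⟨b, rfl⟩ := List.mem_ofFn.1 hF
    simp only [Q, Pi.add_apply, h]
    split_ifs <;> rfl

/-- The draft which follows on `K` the chosen options of the patterns, by the labels. -/
lemma exists_extend {r : ℕ} (hr : 0 < r) {K : H →L[ℂ] H} (hK : IsPr A K) (hKe : K * e = K)
    {nc : ℕ} (k : Fin nc) (s : Finset (Fin nc)) (hks : k ∉ s)
    (P : Draft M A e (Fin nc → Fin (r * (r + 1))) r)
    (hind : ∀ c ω ω', (∀ i, ∀ k' ∈ s, ω i k' = ω' i k') → ∀ j, P.E j c ω = P.E j c ω')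
    {I : Type} [Fintype I] (Pat : I → Rand A e (Fin nc → Fin (r * (r + 1))))
    (hPp : ∀ π, IsPoly M (Pat π))
    (hPv : ∀ c ω (η : Pt A), ev η e = 1 → ∃ π₀, ∀ π, ev η (Pat π c ω) = if π = π₀ then 1 else 0)
    (hPc : ∀ π c ω ω', (∀ i, P.E i c ω = P.E i c ω') → Pat π c ω = Pat π c ω')
    (κ : I → Type) [∀ π, Fintype (κ π)] (T : ∀ π, κ π → Fin (r * (r + 1)) → Fin r → ℝ)
    (a : ∀ π, κ π → (H →L[ℂ] H))
    (hTp : ∀ π i l, ((∀ x, 0 ≤ T π i l x) ∧ ∑ x, T π i l x = 1) ∧
      ({x | T π i l x ≠ 0} : Finset (Fin r)).card ≤ 3)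
    (hTm : ∀ π i x, ∑ l, T π i l x ≤ 2 * (r + 1)) (haA : ∀ π i, a π i ∈ A ∧ e * a π i * e = a π i)
    (haoff : ∀ π (c : Pt A), ev c K ≠ 1 → ∀ i, ev c (a π i) = 0)
    (haon : ∀ π (c : Pt A), ev c K = 1 → ∃ i, ∀ j, ev c (a π j) = if j = i then 1 else 0) :
    ∃ P' : Draft M A e (Fin nc → Fin (r * (r + 1))) r,
      (∀ c ω (η : Pt A), ev η K ≠ 1 → ev η (P'.E P'.base c ω) = ev η (P.E P.base c ω)) ∧
      (∀ c ω (η : Pt A), ev η K = 1 → ev η (P'.E P'.base c ω) = 0) ∧
      (∀ c ω ω', (∀ i, ∀ k' ∈ insert k s, ω i k' = ω' i k') → ∀ j, P'.E j c ω = P'.E j c ω') ∧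
      (∀ c ω (η : Pt A), ev η K ≠ 1 → P'.state c ω η = P.state c ω η) ∧
      ∀ c ω (η : Pt A), ev η K = 1 → ∀ π i l, ev η (Pat π c ω) = 1 → ev η (a π i) = 1 →
        ev η (lab k l c ω) = 1 → P'.state c ω η = (T π i l, 1) := by
  have hKe' : e * K = K := by rw [hM.2.1 e he.1 K hK.1, hKe]
  have hee := he.2.isIdempotentElem.eq
  have hce : ∀ c : Pt A, ev c K = 1 → ev c e = 1 := fun c hc => by
    have := congrArg (ev c) hKe
    rwa [ev_mul c hK.1 he.1, hc, one_mul] at this
  let E' : P.J ⊕ ((π : I) × κ π × Fin (r * (r + 1))) → Rand A e (Fin nc → Fin (r * (r + 1))) :=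
    Sum.elim (fun j => P.E j * cst (e - K)) fun x => cst (a x.1 x.2.1) * lab k x.2.2 * Pat x.1
  have hEp : ∀ j, IsPoly M (E' j) := by
    rintro (j | x)
    · exact (P.poly j).mul hM he (Orth.isPoly_cst (sub_mem he.1 hK.1)
        (by rw [mul_sub, sub_mul, hee, hee, hKe', hKe]))
    · exact ((Orth.isPoly_cst (haA x.1 x.2.1).1 (haA x.1 x.2.1).2).mul hM he
        (Orth.isPoly_vee hM he _)).mul hM he (hPp x.1)
  have hinl : ∀ c ω (η : Pt A) j,
      ev η (E' (Sum.inl j) c ω) = ev η (P.E j c ω) * (ev η e - ev η K) := fun c ω η j => by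
    show ev η (P.E j c ω * (e - K)) = _
    rw [ev_mul η ((P.poly j).mem c ω) (sub_mem he.1 hK.1), ev_sub η he.1 hK.1]
  have hinr : ∀ c ω (η : Pt A) x, ev η (E' (Sum.inr x) c ω) =
      ev η (a x.1 x.2.1) * ev η (lab k x.2.2 c ω) * ev η (Pat x.1 c ω) := fun c ω η x => by
    show ev η (a x.1 x.2.1 * lab k x.2.2 c ω * Pat x.1 c ω) = _
    rw [ev_mul η (mul_mem (haA _ _).1 (lab_mem he k _ c ω)) ((hPp x.1).mem c ω),
      ev_mul η (haA _ _).1 (lab_mem he k _ c ω)]
  have hzero : ∀ c ω (η : Pt A), ev η K ≠ 1 → ∀ x, ev η (E' (Sum.inr x) c ω) = 0 :=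
    fun c ω η hη x => by rw [hinr, haoff _ η hη, zero_mul, zero_mul]
  have hkeep : ∀ c ω (η : Pt A), ev η e = 1 → ev η K ≠ 1 →
      ∀ j, ev η (E' (Sum.inl j) c ω) = ev η (P.E j c ω) := fun c ω η hη hηK j => by
    rw [hinl, hη, (ev_proj η hK).resolve_right hηK, sub_zero, mul_one]
  have houtside : ∀ c ω (η : Pt A), ev η e = 1 → ev η K ≠ 1 → ∀ j,
      (∀ i, ev η (P.E i c ω) = if i = j then 1 else 0) →
      ∀ x, ev η (E' x c ω) = if x = Sum.inl j then 1 else 0 := by
    intro c ω η hη hηK j hj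
    rintro (i | x)
    · rw [hkeep c ω η hη hηK, hj]
      exact if_congr Sum.inl_injective.eq_iff.symm rfl rfl
    · rw [hzero c ω η hηK, if_neg (by simp)]
  have hinside : ∀ c ω (η : Pt A), ev η K = 1 → ∀ π₀ i₀ l₀,
      (∀ π, ev η (Pat π c ω) = if π = π₀ then 1 else 0) →
      (∀ j, ev η (a π₀ j) = if j = i₀ then 1 else 0) →
      (∀ l, ev η (lab k l c ω) = if l = l₀ then 1 else 0) →
      ∀ x, ev η (E' x c ω) = if x = Sum.inr ⟨π₀, i₀, l₀⟩ then 1 else 0 := by
    intro c ω η hη π₀ i₀ l₀ hπ hi₀ hl₀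
    rintro (j | ⟨π, i, l⟩)
    · rw [hinl, hce η hη, hη, sub_self, mul_zero, if_neg (by simp)]
    · rw [hinr, hπ, hl₀]
      by_cases hp : π = π₀
      · subst hp
        simp only [hi₀, Sum.inr.injEq, Sigma.mk.injEq, heq_eq_eq, Prod.mk.injEq, true_and]
        by_cases h1 : i = i₀ <;> by_cases h2 : l = l₀ <;> simp [h1, h2]
      · rw [if_neg hp, mul_zero, if_neg]
        intro h
        exact hp (congrArg Sigma.fst (Sum.inr.inj h))
  let v' : P.J ⊕ ((π : I) × κ π × Fin (r * (r + 1))) → Fin r → ℝ :=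
    Sum.elim P.v fun x => T x.1 x.2.1 x.2.2
  have hmean : ∀ c (η : Pt A) x, ev η e = 1 →
      avg (unif (Fin nc → Fin (r * (r + 1))))
        (fun ω => ∑ j, v' j x * (ev η (E' j c ω)).re) ≤ 2 / r := by
    intro c η x hη
    by_cases hηK : ev η K = 1
    · choose iπ hiπ using fun π => haon π η hηK
      refine le_of_eq_of_le (congrArg _ (funext fun ω => ?_)) (mean_le he hr k c hη
        (fun π ω => (ev η (Pat π c ω)).re) (fun π l l' ω => ?_) (fun π ω => ?_) (fun ω => ?_)
        (fun π l => T π (iπ π) l x) fun π => hTm _ _ _)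
      · obtain ⟨π₀, hπ⟩ := hPv c ω η hη
        obtain ⟨l₀, hl₀⟩ := ev_lab he k c ω hη
        simp [hinside c ω η hηK π₀ _ l₀ hπ (hiπ π₀) hl₀, hπ, hl₀, apply_ite Complex.re, v']
      · refine congrArg (fun z => (ev η z).re) (hPc π c _ _ (hind c _ ω fun i k' hk' => ?_))
        simp [exch_apply, ne_of_mem_of_not_mem hk' hks]
      · obtain ⟨π₀, hπ⟩ := hPv c ω η hη
        rw [hπ]
        split_ifs <;> norm_num
      · obtain ⟨π₀, hπ⟩ := hPv c ω η hη
        simp [hπ, apply_ite Complex.re]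
    · refine le_of_eq_of_le (congrArg _ (funext fun ω => ?_)) (P.mean c η x hη)
      simp [hzero c ω η hηK, hkeep c ω η hη hηK, v']
  let P' : Draft M A e (Fin nc → Fin (r * (r + 1))) r :=
    { J := P.J ⊕ ((π : I) × κ π × Fin (r * (r + 1)))
      base := Sum.inl P.base
      v := v'
      E := E'
      prob := by
        rintro (j | x)
        exacts [P.prob j, (hTp _ _ _).1]
      small := by
        rintro (j | x) h
        exacts [P.small j fun hh => h (by rw [hh]), (hTp _ _ _).2]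
      v_base := P.v_base
      poly := hEp
      off := fun c ω j η hη => by
        have hηK : ev η K ≠ 1 := fun h => one_ne_zero ((hce η h).symm.trans hη)
        rcases j with j | x
        · rw [hinl, P.off c ω j η hη, zero_mul]
        · exact hzero c ω η hηK x
      dec := fun c ω η hη => by
        by_cases hηK : ev η K = 1
        · obtain ⟨π₀, hπ⟩ := hPv c ω η hη
          obtain ⟨l₀, hl₀⟩ := ev_lab he k c ω hη
          obtain ⟨i₀, hi₀⟩ := haon π₀ η hηK
          exact ⟨_, fun x => (hinside c ω η hηK π₀ i₀ l₀ hπ hi₀ hl₀ x).trans (by congr)⟩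
        · obtain ⟨j, hj⟩ := P.dec c ω η hη
          exact ⟨_, fun x => (houtside c ω η hη hηK j hj x).trans (by congr)⟩
      mean := hmean }
  refine ⟨P', fun c ω η hη => ?_, fun c ω η hη => ?_, fun c ω ω' hω j => ?_, fun c ω η hη => ?_,
    fun c ω η hη π i l hπ1 hi1 hl1 => ?_⟩
  · show ev η (E' (Sum.inl P.base) c ω) = _
    rcases ev_proj η he with h | h
    · rw [hinl, P.off c ω _ η h, zero_mul]
    · exact hkeep c ω η h hη _
  · show ev η (E' (Sum.inl P.base) c ω) = 0
    rw [hinl, hce η hη, hη, sub_self, mul_zero]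
  · have hold := hind c ω ω' fun i k' hk' => hω i k' (Finset.mem_insert_of_mem hk')
    rcases j with j | x
    · show P.E j c ω * (e - K) = P.E j c ω' * (e - K)
      rw [hold]
    · show a x.1 x.2.1 * lab k x.2.2 c ω * Pat x.1 c ω =
        a x.1 x.2.1 * lab k x.2.2 c ω' * Pat x.1 c ω'
      simp only [lab, vee, hω _ k (Finset.mem_insert_self k s), hPc x.1 c ω ω' hold]
  · rcases ev_proj η he with h | h
    · rw [Draft.state, Draft.state, rstate_zero fun i => P'.off c ω i η h,
        rstate_zero fun i => P.off c ω i η h]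
    · obtain ⟨j, hj⟩ := P.dec c ω η h
      rw [Draft.state, Draft.state, rstate_val hj]
      exact rstate_val (v := v') fun x => (houtside c ω η h hη j hj x).trans (by congr)
  · obtain ⟨π₀, hπ⟩ := hPv c ω η (hce η hη)
    obtain ⟨l₀, hl₀⟩ := ev_lab he k c ω (hce η hη)
    obtain ⟨i₀, hi₀⟩ := haon π₀ η hη
    obtain rfl : π = π₀ := by
      by_contra hne
      rw [hπ, if_neg hne] at hπ1
      exact zero_ne_one hπ1
    obtain rfl : i = i₀ := by
      by_contra hne
      rw [hi₀, if_neg hne] at hi1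
      exact zero_ne_one hi1
    obtain rfl : l = l₀ := by
      by_contra hne
      rw [hl₀, if_neg hne] at hl1
      exact zero_ne_one hl1
    exact rstate_val (v := v') fun x => (hinside c ω η hη π i l hπ hi₀ hl₀ x).trans (by congr)

variable (hτ : IsTrace M e τ) (D : Gen M A e)
  (hsa : IsSelfAdjoint D.op) (hl : (-1 : ℝ) • e ≤ D.op) (hu : D.op ≤ e)
include hτ hsa hl hu

/-- One stage. -/
lemma draft_stage {r : ℕ} (hr : 0 < r) {n : ℕ} {q : Polynomial ℝ} (hqn : q.natDegree ≤ n)
    {t g η₀ ε : ℝ} (hg : 0 < g) (hε : 0 < ε)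
    (hq : ∀ x ∈ Set.Icc (-1 : ℝ) 1, |(Polynomial.derivative q).eval x - deriv (soft t g) x| ≤ η₀)
    {K : H →L[ℂ] H} (hK : IsPr A K) (hKe : K * e = K) (hKs : Sep D (2 * n) K) {nc : ℕ}
    (k : Fin nc) (s : Finset (Fin nc)) (hks : k ∉ s)
    (P : Draft M A e (Fin nc → Fin (r * (r + 1))) r)
    (hun : ∀ c ω (η : Pt A), ev η K = 1 → ev η (P.E P.base c ω) = 1)
    (hind : ∀ c ω ω', (∀ i, ∀ k' ∈ s, ω i k' = ω' i k') → ∀ j, P.E j c ω = P.E j c ω') :
    ∃ P' : Draft M A e (Fin nc → Fin (r * (r + 1))) r,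
      (∀ c ω (η : Pt A), ev η K ≠ 1 → ev η (P'.E P'.base c ω) = ev η (P.E P.base c ω)) ∧
      (∀ c ω (η : Pt A), ev η K = 1 → ev η (P'.E P'.base c ω) = 0) ∧
      (∀ c ω ω', (∀ i, ∀ k' ∈ insert k s, ω i k' = ω' i k') → ∀ j, P'.E j c ω = P'.E j c ω') ∧
      ∀ c ω, int τ e (fun χ => (pot D n q (P'.state c ω) χ : ℂ)) ≤
        int τ e (fun χ => (pot D n q (P.state c ω) χ : ℂ)) + (8 * η₀ + ε) * (τ K).re := by
  have hKn : Sep D n K := fun a b ha hb h =>
    hKs a b ha hb (reaches_mono hM he D (by omega) h)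
  have hce : ∀ c : Pt A, ev c K = 1 → ev c e = 1 := fun c hc => by
    have := congrArg (ev c) hKe
    rwa [ev_mul c hK.1 he.1, hc, one_mul] at this
  obtain ⟨Pat, hPp, hPv, hPc⟩ := exists_patterns hM he D (2 * n) P
  choose S hS hS2 hS0 hS1 using fun π : Fin (Fintype.card (Fin (2 * n) → Fin D.N) + 1) → P.J =>
    exists_pattern_state hM he D hr hK hKe hKs (fun a => P.v (π a)) fun a => P.prob _
  choose κ hκ T a hTp hTm haA haoff haon using fun π => exists_select_many hM he D hτ hsa hl hu hr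
    hqn hg hε hq hK hKe hKn (hS π) (hS2 π) (hS0 π)
  obtain ⟨P', h1, h2, h3, hoff, hon⟩ := exists_extend hM he hr hK hKe k s hks P hind Pat hPp
    (fun c ω η hη => (hPv c ω η hη).imp fun _ h π => (h.1 π).trans (by congr)) hPc κ T a hTp hTm haA haoff
    fun π c hc => (haon π c hc).imp fun _ h => h.1
  refine ⟨P', h1, h2, h3, fun c ω => stage_le hM he hτ D hqn hr hK hKe hKn (P.isState hr he c ω)
    (P'.isState hr he c ω) (hoff c ω) fun p hp => ?_⟩
  obtain ⟨π₀, hπ, hπ'⟩ := hPv c ω p (hce p hp)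
  obtain ⟨l₀, hl₀⟩ := ev_lab he k c ω (hce p hp)
  obtain ⟨i₀, hi₀, hmove⟩ := haon π₀ p hp
  have hnew : P'.state c ω p = (T π₀ i₀ l₀, 1) :=
    hon c ω p hp π₀ i₀ l₀ (by rw [hπ, if_pos rfl]) (by rw [hi₀, if_pos rfl])
      (by rw [hl₀, if_pos rfl])
  have heq : ∀ u : D.ball p (2 * n), P.state c ω u = S π₀ u := fun u => by
    refine Prod.ext ?_ ?_
    · by_cases hup : (u : Pt A) = p
      · rw [hup, P.state_base (hce p hp) (hun c ω p hp), hS0 π₀ p hp]
      · have hur := (mem_ball D).1 u.2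
        have huK : ev (u : Pt A) K ≠ 1 := fun h =>
          hup (hKs p u hp h (reaches_mono hM he D (by omega) hur))
        obtain ⟨b, hb, hmin⟩ := exists_pick D (2 * n) hur
        rw [hS1 π₀ p b u hp huK hb hmin, Draft.state, rstate_val (hπ' b u hb)]
    · rw [hS2]
      rfl
  have heq' : ∀ u : D.ball p (2 * n),
      Function.update (P.state c ω) p (P'.state c ω p) u =
        Function.update (S π₀) p (T π₀ i₀ l₀, 1) u := fun u => by
    by_cases hup : (u : Pt A) = p
    · simp [hup, hnew]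
    · simp [Function.update_of_ne hup, heq u]
  simp only [fun u => both_congr_fun q D.a D.g p (rep M p) heq u,
    fun u => both_congr_fun q D.a D.g p (rep M p) heq' u]
  exact hmove l₀

end Vale.Agent.P078.MKS.Op
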