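import Vale.Agent.P078.Orth.Random.Defs
import Vale.Agent.P078.Orth.Random.Stage
import Vale.Agent.P078.MKS.Final

/-!
Random two-sided paving: the random pass, one colour per weight, and the traces.
-/

namespace Vale.Agent.P078.MKS.Op

open Singular
open Orth (Cut Rand IsPoly avg cst)
open scoped Classical

variable {H : Type} [NormedAddCommGroup H] [InnerProductSpace ℂ H] [CompleteSpace H]
  {M A : VonNeumannAlgebra H} {e : H →L[ℂ] H} {τ : (H →L[ℂ] H) →ₗ[ℂ] ℂ}

lemma avg_unif_const {L : Type} [Fintype L] [Nonempty L] {n : ℕ} (x : ℝ) :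
    avg (unif L) (fun _ : Fin n → L => x) = x := by
  rw [avg_unif]
  simp

variable (hM : IsMASA M A) (he : IsPr A e) (hτ : IsTrace M e τ) (D : Gen M A e)
  (hsa : IsSelfAdjoint D.op) (hl : (-1 : ℝ) • e ≤ D.op) (hu : D.op ≤ e)
include hM he hτ hsa hl hu

/-- The whole random pass. -/
lemma random_pass {r : ℕ} (hr : 0 < r) {n : ℕ} {q : Polynomial ℝ} (hqn : q.natDegree ≤ n)
    {t g η₀ ε : ℝ} (hg : 0 < g) (hε : 0 < ε)
    (hq : ∀ x ∈ Set.Icc (-1 : ℝ) 1, |(Polynomial.derivative q).eval x - deriv (soft t g) x| ≤ η₀) :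
    ∃ (nc : ℕ) (P : Draft M A e (Fin nc → Fin (r * (r + 1))) r),
      (∀ c ω (η : Pt A), ev η e = 1 → ev η (P.E P.base c ω) = 0) ∧
      ∀ c ω, int τ e (fun χ => (pot D n q (P.state c ω) χ : ℂ)) ≤
        int τ e (fun χ => (pot D n q
          (fun _ : Pt A => ((fun _ : Fin r => (1 / r : ℝ)), (1 : ℝ))) χ : ℂ)) +
          (8 * η₀ + ε) * (τ e).re := by
  obtain ⟨nc, K, hK, hKs⟩ := exists_sep_cells hM he D (2 * n)
  refine ⟨nc, ?_⟩
  have : NeZero (r * (r + 1)) := ⟨(Nat.mul_pos hr r.succ_pos).ne'⟩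
  have hKe : ∀ k, K k * e = K k := fun k => (hK.mul_e k).2
  have hdisj : ∀ {η : Pt A} {i j : Fin nc}, ev η (K i) = 1 → ev η (K j) = 1 → i = j := by
    intro η i j hi hj
    by_contra hne
    have := congrArg (ev η) (hK.2.1 i j hne)
    rw [ev_mul η (hK.1 i).1 (hK.1 j).1, hi, hj, one_mul, ev_zero] at this
    exact one_ne_zero this
  suffices h : ∀ s : Finset (Fin nc), ∃ P : Draft M A e (Fin nc → Fin (r * (r + 1))) r,
      (∀ k, k ∉ s → ∀ c ω (η : Pt A), ev η (K k) = 1 → ev η (P.E P.base c ω) = 1) ∧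
      (∀ k ∈ s, ∀ c ω (η : Pt A), ev η (K k) = 1 → ev η (P.E P.base c ω) = 0) ∧
      (∀ c ω ω', (∀ i, ∀ k' ∈ s, ω i k' = ω' i k') → ∀ j, P.E j c ω = P.E j c ω') ∧
      ∀ c ω, int τ e (fun χ => (pot D n q (P.state c ω) χ : ℂ)) ≤
        int τ e (fun χ => (pot D n q
          (fun _ : Pt A => ((fun _ : Fin r => (1 / r : ℝ)), (1 : ℝ))) χ : ℂ)) +
          (8 * η₀ + ε) * ∑ k ∈ s, (τ (K k)).re by
    obtain ⟨P, -, hdone, -, hint⟩ := h Finset.univ
    refine ⟨P, fun c ω η hη => ?_, fun c ω => ?_⟩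
    · obtain ⟨k, hk⟩ := ev_partition η hK hη
      exact hdone k (Finset.mem_univ k) c ω η hk
    · have := hint c ω
      rwa [← Complex.re_sum, ← map_sum, hK.2.2] at this
  intro s
  induction s using Finset.induction_on with
  | empty =>
    let P : Draft M A e (Fin nc → Fin (r * (r + 1))) r :=
      { J := Unit
        base := ()
        v := fun _ _ => (1 / r : ℝ)
        E := fun _ => cst e
        prob := fun _ => ⟨fun _ => by positivity, by simp [hr.ne']⟩
        small := fun j h => absurd (Subsingleton.elim j ()) h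
        v_base := rfl
        poly := fun _ => Orth.isPoly_cst he.1 (by
          rw [he.2.isIdempotentElem.eq, he.2.isIdempotentElem.eq])
        off := fun _ _ _ η h => h
        dec := fun _ _ η h => ⟨(), fun i => by rw [if_pos (Subsingleton.elim i ())]; exact h⟩
        mean := fun c η x h => by
          simp only [cst, h, Complex.one_re, mul_one, Finset.univ_unique, Finset.sum_singleton]
          rw [avg_unif_const]
          exact div_le_div_of_nonneg_right one_le_two (Nat.cast_nonneg r) }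
    refine ⟨P, fun k _ c ω η hη => ?_, fun k hk => absurd hk (Finset.notMem_empty k),
      fun c ω ω' _ j => rfl, fun c ω => ?_⟩
    · show ev η e = 1
      have := congrArg (ev η) (hKe k)
      rwa [ev_mul η (hK.1 k).1 he.1, hη, one_mul] at this
    · have hS : P.state c ω = fun _ : Pt A => ((fun _ : Fin r => (1 / r : ℝ)), (1 : ℝ)) := by
        funext η
        refine Prod.ext (funext fun x => ?_) rfl
        simp [Draft.state, rstate, P]
      rw [hS, Finset.sum_empty, mul_zero, add_zero]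
  | insert k s hks ih =>
    obtain ⟨P, hrest, hdone, hind, hint⟩ := ih
    obtain ⟨P', hoff, hon, hind', hle⟩ := draft_stage hM he hτ D hsa hl hu hr hqn hg hε hq (hK.1 k)
      (hKe k) (hKs k) k s hks P (hrest k hks) hind
    refine ⟨P', fun j hj c ω η hη => ?_, fun j hj c ω η hη => ?_, hind', fun c ω => ?_⟩
    · rw [hoff c ω η fun h => hj (Finset.mem_insert.2 (Or.inl (hdisj hη h)))]
      exact hrest j (fun h => hj (Finset.mem_insert_of_mem h)) c ω η hη
    · rcases Finset.mem_insert.1 hj with rfl | hj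
      · exact hon c ω η hη
      · rw [hoff c ω η fun h => hks (hdisj h hη ▸ hj)]
        exact hdone j hj c ω η hη
    · rw [Finset.sum_insert hks]
      linarith [hle c ω, hint c ω]

omit hτ hsa hl hu in
/-- Colouring every weight by a colour of weight at least `1/3`. -/
lemma exists_colours {r : ℕ} (hr : 0 < r) {L : Type} [Fintype L] [Nonempty L]
    (P : Draft M A e L r) (hbase : ∀ c ω (η : Pt A), ev η e = 1 → ev η (P.E P.base c ω) = 0)
    {d : ℝ} (hd0 : 0 ≤ d) (hd1 : d ≤ 1) (hd2 : d ^ 2 = 1 / 3) :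
    ∃ (C : Fin r → Rand A e L) (T : (c : Cut A e) → (Fin c.n → L) → St A r),
      (∀ s, IsPoly M (C s)) ∧ (∀ c ω, IsState A e (T c ω)) ∧
      (∀ c ω (η : Pt A), ev η e = 1 → ∃ s, T c ω η = (Pi.single s 1, d) ∧
        d ^ 2 ≤ (P.state c ω η).1 s) ∧
      (∀ c ω (η : Pt A) s, ev η e = 1 → ev η (C s c ω) = ((T c ω η).1 s : ℂ)) ∧
      (∀ c ω (η : Pt A) s, ev η e = 0 → ev η (C s c ω) = 0) ∧
      ∀ c s, avg (unif L) (fun ω => C s c ω) ≤ (6 / r : ℝ) • e := by
  have hthird : ∀ j, ∃ s, j ≠ P.base → 1 / 3 ≤ P.v j s := fun j => by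
    by_cases hj : j = P.base
    · exact ⟨⟨0, hr⟩, fun h => absurd hj h⟩
    · obtain ⟨s, hs⟩ := exists_third (P.prob j).1 (P.prob j).2 (P.small j hj)
      exact ⟨s, fun _ => hs⟩
  choose sv hsv using hthird
  let C : Fin r → Rand A e L := fun s => ∑ j ∈ Finset.univ.filter (fun j => sv j = s), P.E j
  let T : (c : Cut A e) → (Fin c.n → L) → St A r := fun c ω η =>
    ((rstate (fun j => Pi.single (sv j) 1) (fun j => P.E j c ω) η).1, d)
  have hidx : ∀ c ω (η : Pt A), ev η e = 1 → ∃ j, j ≠ P.base ∧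
      ∀ i, ev η (P.E i c ω) = if i = j then 1 else 0 := by
    intro c ω η hη
    obtain ⟨j, hj⟩ := P.dec c ω η hη
    refine ⟨j, fun h => ?_, hj⟩
    have := hbase c ω η hη
    rw [hj, if_pos h.symm] at this
    exact one_ne_zero this
  have hCp : ∀ s, IsPoly M (C s) := fun s => IsPoly.sum _ fun j _ => P.poly j
  have hCev : ∀ c ω (η : Pt A) s, ev η (C s c ω) =
      ∑ j ∈ Finset.univ.filter (fun j => sv j = s), ev η (P.E j c ω) := fun c ω η s => by
    simp only [C, Finset.sum_apply]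
    exact ev_sum η _ _ fun j _ => (P.poly j).mem c ω
  refine ⟨C, T, hCp, fun c ω => ?_, fun c ω η hη => ?_, fun c ω η s hη => ?_,
    fun c ω η s hη => ?_, fun c s => ?_⟩
  · obtain ⟨h1, h2, -⟩ := isState_rstate (e := e) (v := fun j => (Pi.single (sv j) 1 : Fin r → ℝ))
      (x := fun j => P.E j c ω) hr (fun j => ⟨fun i => by
        by_cases hi : i = sv j <;> simp [hi], by simp⟩) (fun j => (P.poly j).mem c ω) fun η => by
        rcases ev_proj η he with h | h
        · exact Or.inl fun j => P.off c ω j η h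
        · exact Or.inr (P.dec c ω η h)
    exact ⟨fun η => ⟨(h1 η).1, hd0, hd1⟩, h2, rep_const (d : ℂ)⟩
  · obtain ⟨j, hj, hval⟩ := hidx c ω η hη
    refine ⟨sv j, by simp only [T, rstate_val hval], ?_⟩
    rw [Draft.state, rstate_val hval, hd2]
    exact hsv j hj
  · obtain ⟨j, -, hval⟩ := hidx c ω η hη
    simp only [T, rstate_val hval, hCev, hval, Finset.sum_ite_eq', Finset.mem_filter,
      Finset.mem_univ, true_and, Pi.single_apply]
    split_ifs <;> simp_all
  · rw [hCev, Finset.sum_eq_zero fun j _ => P.off c ω j η hη]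
  · have hsm : ∀ x : H →L[ℂ] H, x ∈ A → ∀ (a : ℝ) (χ : Pt A), ev χ (a • x) = a * ev χ x :=
      fun x hx a χ => by rw [← Complex.coe_smul, ev_smul χ _ hx]
    have hrs : ∀ (a : ℝ) {x : H →L[ℂ] H}, x ∈ A → a • x ∈ A := fun a x hx => by
      rw [← Complex.coe_smul]; exact csmul_mem _ hx
    have hmem : avg (unif L) (fun ω => C s c ω) ∈ A :=
      sum_mem fun ω _ => hrs _ ((hCp s).mem c ω)
    have hsa : IsSelfAdjoint (avg (unif L) (fun ω => C s c ω)) := by
      refine isSelfAdjoint_sum _ fun ω _ => (IsSelfAdjoint.all _).smul ?_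
      refine (isPr_of_ev hM.2.1 ((hCp s).mem c ω) fun χ => ?_).2.isSelfAdjoint
      rcases ev_proj χ he with h | h
      · exact Or.inl (by rw [hCev, Finset.sum_eq_zero fun j _ => P.off c ω j χ h])
      · obtain ⟨j, -, hval⟩ := hidx c ω χ h
        rw [hCev]
        simp only [hval, Finset.sum_ite_eq']
        split_ifs
        exacts [Or.inr rfl, Or.inl rfl]
    refine le_of_ev hM.2.1 hmem (hrs _ he.1) hsa
      ((IsSelfAdjoint.all _).smul he.2.isSelfAdjoint) fun η => ?_
    have h1 : (ev η (avg (unif L) (fun ω => C s c ω))).re =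
        avg (unif L) (fun ω => (ev η (C s c ω)).re) := by
      simp only [avg]
      rw [ev_sum η _ _ fun ω _ => hrs _ ((hCp s).mem c ω), Complex.re_sum]
      exact Finset.sum_congr rfl fun ω _ => by
        rw [hsm _ ((hCp s).mem c ω), Complex.re_ofReal_mul, smul_eq_mul]
    rw [hsm e he.1, Complex.re_ofReal_mul, h1]
    rcases ev_proj η he with hη | hη
    · simp [hCev, fun ω j => P.off c ω j η hη, hη, avg]
    · rw [hη, Complex.one_re, mul_one]
      refine le_trans (b := avg (unif L) (fun ω =>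
        3 * ∑ j, P.v j s * (ev η (P.E j c ω)).re)) ?_ ?_
      · simp only [avg_unif]
        refine mul_le_mul_of_nonneg_left (Finset.sum_le_sum fun ω _ => ?_) (by positivity)
        obtain ⟨j, hj, hval⟩ := hidx c ω η hη
        rw [hCev]
        simp only [hval, apply_ite Complex.re, Complex.one_re, Complex.zero_re, mul_ite, mul_one,
          mul_zero, Finset.sum_ite_eq', Finset.mem_filter, Finset.mem_univ, true_and, if_true]
        split_ifs with h
        · rw [← h]; linarith [hsv j hj]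
        · exact mul_nonneg zero_le_three ((P.prob j).1 s)
      · have h := P.mean c η s hη
        rw [avg_unif] at h ⊢
        rw [← Finset.mul_sum]
        calc _ = 3 * ((1 / Fintype.card L : ℝ) ^ c.n *
              ∑ ω, ∑ j, P.v j s * (ev η (P.E j c ω)).re) := by ring
          _ ≤ 3 * (2 / r) := mul_le_mul_of_nonneg_left h zero_le_three
          _ = 6 / r := by ring

end Vale.Agent.P078.MKS.Op

namespace Vale.Agent.P078.Orth

open MKS MKS.Op Singular

/-- The module Random. -/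
theorem random_two_sided_ok : RandomTwoSidedStatement := by
  intro H _ _ _ M A e τ hM heA hes hτ y hy hsa hl hu n E hE hE0 r b u δ hr hb heu hδ
  have he : IsPr A e := ⟨heA, hes⟩
  obtain ⟨D, rfl⟩ := exists_gen hM he hy
  set τe := (τ e).re with hτe
  have hτe0 : 0 ≤ τe := tr_nonneg hτ hes (cor_proj (hM.1 e heA) hes) hes.nonneg
  set e₀ := edge (-1) 0 b r with he₀
  have he₀0 : 0 < e₀ := by
    have h1 : b + 1 ≠ 0 := by linarith
    have h2 : b - 1 ≠ 0 := by linarith
    have h3 : (0 : ℝ) < b := by linarith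
    have hrR : (0 : ℝ) < r := by exact_mod_cast hr
    have h4 : ((1 - 0) / (b - -1) + (0 - -1) / (b - 1)) / (1 - -1) = b / ((b + 1) * (b - 1)) := by
      rw [sub_neg_eq_add]; field_simp; ring
    have h5 : b - (b + 1) * (b - 1) / b = 1 / b := by field_simp; ring
    rw [he₀, edge, h4, one_div_div, h5]
    positivity
  set t := (e₀ + u) / 2 with ht
  have hte : e₀ < t := by rw [ht]; linarith
  have htu : t < u := by rw [ht]; linarith
  have hu0 : 0 < u := by linarith
  set δ₀ := δ / (9 * (τe + 1)) with hδ₀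
  have hδ₀0 : 0 < δ₀ := by positivity
  obtain ⟨m, hm⟩ := exists_qm_exponent (u := u) (t := t) (by linarith) htu
    (show 0 < δ₀ / 6 by positivity)
  set c₀ := 2 * (2 / (1 + u)) ^ m with hc₀
  have hc₀0 : 0 < c₀ := by positivity
  set g := δ₀ * (t - e₀) / (8 * c₀) with hg
  have hg0 : 0 < g := by have : 0 < t - e₀ := sub_pos.2 hte; positivity
  set η := δ₀ / (4 * (17 * c₀ + 1)) with hη
  have hη0 : 0 < η := by positivity
  obtain ⟨qs, hqs, hqs'⟩ := exists_soft_poly t g hη0
  set N := max qs.natDegree (qm u m).natDegree with hN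
  have hNs : qs.natDegree ≤ N := le_max_left _ _
  have hNm : (qm u m).natDegree ≤ N := le_max_right _ _
  have hrR : (r : ℝ) ≠ 0 := Nat.cast_ne_zero.2 (by omega)
  set S₀ : St A r := fun _ => ((fun _ : Fin r => (1 / r : ℝ)), (1 : ℝ)) with hS₀
  have hS₀s : IsState A e S₀ :=
    ⟨fun _ => ⟨⟨fun _ => by positivity, by simp [hS₀, hrR]⟩, zero_le_one, le_rfl⟩,
      fun s => rep_const ((1 / r : ℝ) : ℂ), rep_const ((1 : ℝ) : ℂ)⟩
  have hmem : ∀ χ : Pt A, ev χ e = 1 → χ ∈ D.ball χ N := fun χ h =>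
    (mem_ball D).2 (reaches_self hM he D h N)
  have hI0 : int τ e (fun χ => (pot D N qs S₀ χ : ℂ)) ≤ (2 * (g / (t - e₀) + 2 * η)) * τe := by
    refine (int_mono hM he hτ (rep_pot_ok H M A e hM he D N qs hNs r hr S₀ hS₀s) (rep_const _)
      fun χ hχ => ?_).trans (le_of_eq (int_const hM he hτ _))
    simp only [Complex.ofReal_re, pot, dif_pos (hmem χ hχ)]
    refine start_le hM he (frame_ball hM he D χ N) hsa hl hu hE hE0 hr hb qs
      (fun x hx hxe => ?_) _
    linarith [(abs_le.1 (hqs' x hx)).2, soft_le hg0 hxe hte]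
  -- the random pass
  obtain ⟨nc, P, hbase, hI1⟩ := random_pass hM he hτ D hsa hl hu hr hNs hg0 hη0 hqs
  have : Nonempty (Fin (r * (r + 1))) := ⟨⟨0, Nat.mul_pos hr r.succ_pos⟩⟩
  -- one colour per weight
  set d := Real.sqrt (1 / 3) with hd
  have hd0 : 0 ≤ d := Real.sqrt_nonneg _
  have hd2 : d ^ 2 = 1 / 3 := Real.sq_sqrt (by norm_num)
  have hd1 : d ≤ 1 := Real.sqrt_le_one.2 (by norm_num)
  obtain ⟨C, T, hCp, hTs, hTe, hCv, hC0, hCm⟩ := exists_colours hM he hr P hbase hd0 hd1 hd2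
  have hpart : ∀ c ω, IsPartition A e (fun s => C s c ω) ∧
      (τ (e * Polynomial.aeval ((d ^ 2) • pinch (fun s => C s c ω) D.op) (qm u m) * e)).re +
        (τ (e * Polynomial.aeval (-((d ^ 2) • pinch (fun s => C s c ω) D.op)) (qm u m) * e)).re =
          int τ e (fun χ => (pot D N (qm u m) (T c ω) χ : ℂ)) := fun c ω => by
    obtain ⟨P', hP', hP'v, hP'e⟩ := final_tied hM he hτ D hNm (T c ω) d (hTs c ω)
      fun χ hχ => (hTe c ω χ hχ).imp fun _ h => h.1
    have hsame : P' = fun s => C s c ω := funext fun s => by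
      refine eq_of_ev hM.2.1 (hP'.1 s).1 ((hCp s).mem c ω) fun χ => ?_
      rcases ev_proj χ he with h | h
      · rw [hC0 c ω χ s h, ← (hP'.mul_e s).2, ev_mul χ (hP'.1 s).1 he.1, h, mul_zero]
      · rw [hP'v χ s h, hCv c ω χ s h]
    subst hsame
    exact ⟨hP', hP'e⟩
  refine ⟨Fin nc → Fin (r * (r + 1)), inferInstance, unif _, fun c ω s => C s c ω,
    fun l => by unfold unif; positivity, ?_, fun c ω => (hpart c ω).1, fun s => (hCp s).isField,
    hCm, fun c ω => ?_⟩
  · simp only [unif, Finset.sum_const, Finset.card_univ, nsmul_eq_mul]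
    exact mul_one_div_cancel (Nat.cast_ne_zero.2 Fintype.card_ne_zero)
  have hS₁s := P.isState hr he c ω
  -- the end of the first pass controls the start of the second
  have hrs := rep_pot_ok H M A e hM he D N qs hNs r hr _ hS₁s
  have hI3 : int τ e (fun χ => (pot D N (qm u m) (P.state c ω) χ : ℂ)) ≤
      2 * (((1 + t) / (1 + u)) ^ m + c₀ * (2 * η)) * τe +
        c₀ * int τ e (fun χ => (pot D N qs (P.state c ω) χ : ℂ)) := by
    have hc := rep_const (A := A) (e := e)
      ((2 * (((1 + t) / (1 + u)) ^ m + c₀ * (2 * η)) : ℝ) : ℂ)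
    have hmul := mul_mem (rep_const (A := A) (e := e) (c₀ : ℂ)) hrs
    refine (int_mono hM he hτ (rep_pot_ok H M A e hM he D N _ hNm r hr _ hS₁s) (add_mem hc hmul)
      fun χ hχ => ?_).trans (le_of_eq ?_)
    · simp only [Pi.add_apply, Pi.mul_apply, Complex.ofReal_re, Complex.add_re, Complex.mul_re,
        Complex.ofReal_im, mul_zero, sub_zero, pot, dif_pos (hmem χ hχ)]
      refine both_affine_le hM he (frame_ball hM he D χ N) hsa hl hu hS₁s.1 _ _ _ _
        (fun x hx => ?_) _
      have h1 := qm_le hu0.le (show -1 ≤ t by linarith) hg0 m hx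
      rw [← hc₀] at h1
      nlinarith [mul_le_mul_of_nonneg_left (abs_le.1 (hqs' x hx)).1 hc₀0.le]
    · rw [int_add hM he hτ hc hmul, int_const hM he hτ, int_const_mul hM he hτ hrs]
  have hI2 : int τ e (fun χ => (pot D N (qm u m) (T c ω) χ : ℂ)) ≤
      int τ e (fun χ => (pot D N (qm u m) (P.state c ω) χ : ℂ)) + 0 * (τ e).re :=
    pass_fixed hM he hτ D hNm hr hS₁s (hTs c ω) fun S' hS' _ χ U R hR k hk => by
      obtain ⟨s, hs, hds⟩ := hTe c ω (k : Pt A) (hR k k.2).2.2
      rw [hs]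
      refine step_one hM he hR hsa hl hu hu0.le hE hE0 hS'.1 hd0 hd1 k ?_ s ?_
      · rw [hk]; rfl
      · rw [hk]; exact hds
  obtain ⟨hP, hPe⟩ := hpart c ω
  have hyc : Cor M e D.op := normSpan_cor hM hy
  obtain ⟨hb1, hb2⟩ := pinch_bounds hP hl (le_of_le_of_eq hu (one_smul ℝ e).symm)
  exact two_cut hes (hM.1 e heA) hτ (cor_pinch hτ hes hM.1 hP hyc.1) (pinch_selfAdjoint' hP hsa)
    hb1 hb2 hd2 hu0 m (hPe.le.trans (budget hτe0 hc₀0 hδ₀0.le
      (by rw [hδ₀]; field_simp) hη (by rw [hg]; field_simp [(sub_pos.2 hte).ne']) hm.le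
      hI0 (hI1 c ω) hI3 (hI2.trans (by linarith [mul_nonneg hη0.le hτe0]))))

end Vale.Agent.P078.Orth
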