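import Vale.Agent.P078.Orth.Avg
import Vale.Agent.P078.MKS.Germ
import Vale.Agent.P078.MKS.Gelfand

/-!
Exact polynomials in translated functions of the labels of the cells.
-/

namespace Vale.Agent.P078.Orth

open Filter Topology MKS Singular MKS.Op

variable {H : Type} [NormedAddCommGroup H] [InnerProductSpace ℂ H] [CompleteSpace H]
variable {M A : VonNeumannAlgebra H} {e : H →L[ℂ] H} {τ : (H →L[ℂ] H) →ₗ[ℂ] ℂ} {L : Type}

/-- A fixed polynomial, with coefficients in the algebra, of translated functions of the labels. -/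
def IsPoly (M : VonNeumannAlgebra H) (F : Rand A e L) : Prop :=
  ∃ (ι : Type) (_ : Fintype ι) (a : ι → (H →L[ℂ] H)) (w : ι → List ((H →L[ℂ] H) × (L → ℝ))),
    (∀ j, a j ∈ A ∧ e * a j * e = a j) ∧
    (∀ j, ∀ p ∈ w j, p.1 ∈ normaliser M A ∧ e * p.1 * e = p.1) ∧
    ∀ c ω, F c ω = ∑ j, a j * ((w j).map fun p => vee p.1 p.2 c ω).prod

theorem vee_mem {h : H →L[ℂ] H} (hn : h ∈ normaliser M A) (f : L → ℝ) (c : Cut A e)
    (ω : Fin c.n → L) : vee h f c ω ∈ A :=
  sum_mem fun i _ => by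
    rw [← Complex.coe_smul]
    exact csmul_mem _ (cell_mem hn c i)

theorem prod_vee_mem {l : List ((H →L[ℂ] H) × (L → ℝ))}
    (h : ∀ p ∈ l, p.1 ∈ normaliser M A ∧ e * p.1 * e = p.1) (c : Cut A e) (ω : Fin c.n → L) :
    (l.map fun p => vee p.1 p.2 c ω).prod ∈ A := by
  refine list_prod_mem fun x hx => ?_
  obtain ⟨p, hp, rfl⟩ := List.mem_map.1 hx
  exact vee_mem (h p hp).1 _ c ω

theorem IsPoly.mem {F : Rand A e L} (hF : IsPoly M F) (c : Cut A e) (ω : Fin c.n → L) :
    F c ω ∈ A := by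
  obtain ⟨ι, _, a, w, ha, hw, hF⟩ := hF
  rw [hF]
  exact sum_mem fun j _ => mul_mem (ha j).1 (prod_vee_mem (hw j) c ω)

theorem isPoly_cst {x : H →L[ℂ] H} (hx : x ∈ A) (hxe : e * x * e = x) :
    IsPoly M (cst x : Rand A e L) :=
  ⟨Unit, inferInstance, fun _ => x, fun _ => [], fun _ => ⟨hx, hxe⟩, by simp, by simp [cst]⟩

theorem isPoly_zero : IsPoly M (0 : Rand A e L) :=
  ⟨Empty, inferInstance, Empty.elim, Empty.elim, fun j => j.elim, fun j => j.elim,
    fun _ _ => by simp⟩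

/-- The function `f` of the label of the cell of a point. -/
theorem isPoly_vee (hM : IsMASA M A) (he : IsPr A e) (f : L → ℝ) :
    IsPoly M (fun c ω => vee e f c ω : Rand A e L) := by
  have hee := he.2.isIdempotentElem.eq
  refine ⟨Unit, inferInstance, fun _ => e, fun _ => [(e, f)], fun _ => ⟨he.1, by rw [hee, hee]⟩,
    fun _ p hp => ?_, fun c ω => ?_⟩
  · simp only [List.mem_singleton] at hp
    subst hp
    exact ⟨proj_mem_nor hM he, by simp only [hee]⟩
  · simp only [vee, cell, Finset.univ_unique, Finset.sum_singleton, List.map_cons, List.map_nil,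
      List.prod_cons, List.prod_nil, mul_one, Finset.mul_sum, mul_smul_comm, ← mul_assoc, hee]

theorem IsPoly.add {F G : Rand A e L} (hF : IsPoly M F) (hG : IsPoly M G) :
    IsPoly M (F + G) := by
  obtain ⟨ι, _, a, w, ha, hw, hF⟩ := hF
  obtain ⟨κ, _, b, v, hb, hv, hG⟩ := hG
  refine ⟨ι ⊕ κ, inferInstance, Sum.elim a b, Sum.elim w v, ?_, ?_, fun c ω => ?_⟩
  · rintro (j | j)
    exacts [ha j, hb j]
  · rintro (j | j)
    exacts [hw j, hv j]
  · simp [Fintype.sum_sum_type, hF, hG]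

theorem IsPoly.sum {ι : Type*} (s : Finset ι) {F : ι → Rand A e L}
    (h : ∀ i ∈ s, IsPoly M (F i)) : IsPoly M (∑ i ∈ s, F i) :=
  Finset.sum_induction _ (IsPoly M) (fun _ _ => IsPoly.add) isPoly_zero h

theorem IsPoly.mul (hM : IsMASA M A) (he : IsPr A e) {F G : Rand A e L} (hF : IsPoly M F)
    (hG : IsPoly M G) : IsPoly M (F * G) := by
  obtain ⟨ι, _, a, w, ha, hw, hF⟩ := hF
  obtain ⟨κ, _, b, v, hb, hv, hG⟩ := hG
  refine ⟨ι × κ, inferInstance, fun j => a j.1 * b j.2, fun j => w j.1 ++ v j.2,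
    fun j => ⟨mul_mem (ha j.1).1 (hb j.2).1,
      ((show Cor M e (a j.1) from ⟨hM.1 _ (ha j.1).1, (ha j.1).2⟩).mul he.2
        ⟨hM.1 _ (hb j.2).1, (hb j.2).2⟩).2⟩,
    fun j p hp => ?_, fun c ω => ?_⟩
  · rcases List.mem_append.1 hp with h | h
    exacts [hw _ p h, hv _ p h]
  · simp only [Pi.mul_apply, hF, hG, Finset.sum_mul_sum, Fintype.sum_prod_type, List.map_append,
      List.prod_append]
    refine Finset.sum_congr rfl fun i _ => Finset.sum_congr rfl fun k _ => ?_
    rw [mul_assoc, ← mul_assoc _ (b k),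
      hM.2.1 _ (prod_vee_mem (hw i) c ω) _ (hb k).1]
    simp only [mul_assoc]

theorem IsPoly.mul_list (hM : IsMASA M A) (he : IsPr A e) :
    ∀ (l : List (Rand A e L)) {G : Rand A e L}, IsPoly M G → (∀ F ∈ l, IsPoly M F) →
      IsPoly M (G * l.prod) := by
  intro l
  induction l with
  | nil => intro G hG _; simpa using hG
  | cons F l ih =>
    intro G hG h
    rw [List.prod_cons, ← mul_assoc]
    exact ih (hG.mul hM he (h F List.mem_cons_self)) fun K hK => h K (List.mem_cons_of_mem F hK)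

theorem conj_vee (g h : H →L[ℂ] H) (f : L → ℝ) (c : Cut A e) (ω : Fin c.n → L) :
    star g * vee h f c ω * g = vee (star g * h) f c ω := by
  simp only [vee, cell, Finset.mul_sum, Finset.sum_mul, mul_smul_comm, smul_mul_assoc, star_mul,
    star_star, mul_assoc]

theorem conj_prod (hM : IsMASA M A) {g : H →L[ℂ] H} (hg : g ∈ normaliser M A) (c : Cut A e)
    (ω : Fin c.n → L) : ∀ (l : List ((H →L[ℂ] H) × (L → ℝ))) {a : H →L[ℂ] H}, a ∈ A →
      (∀ p ∈ l, p.1 ∈ normaliser M A ∧ e * p.1 * e = p.1) →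
      star g * (a * (l.map fun p => vee p.1 p.2 c ω).prod) * g =
        star g * a * g * ((l.map fun p => (star g * p.1, p.2)).map
          fun p => vee p.1 p.2 c ω).prod := by
  intro l
  induction l with
  | nil => intro a _ _; simp
  | cons p l ih =>
    intro a ha h
    have hp := vee_mem (h p List.mem_cons_self).1 p.2 c ω
    simp only [List.map_cons, List.prod_cons]
    rw [← mul_assoc a, ih (mul_mem ha hp) (fun q hq => h q (List.mem_cons_of_mem p hq)),
      ← masa_conj_mul hM hg ha hp, conj_vee]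
    simp only [mul_assoc]

theorem IsPoly.conj (hM : IsMASA M A) (he : IsPr A e) {F : Rand A e L} (hF : IsPoly M F)
    {g : H →L[ℂ] H} (hg : g ∈ normaliser M A) (hgc : e * g * e = g) :
    IsPoly M (fun c ω => star g * F c ω * g : Rand A e L) := by
  obtain ⟨ι, _, a, w, ha, hw, hF⟩ := hF
  have hgC : Cor M e g := ⟨hg.1, hgc⟩
  refine ⟨ι, inferInstance, fun j => star g * a j * g,
    fun j => (w j).map fun p => (star g * p.1, p.2),
    fun j => ⟨(hg.2.2 _ (ha j).1).2,
      (((hgC.star' he.2).mul he.2 ⟨hM.1 _ (ha j).1, (ha j).2⟩).mul he.2 hgC).2⟩,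
    fun j p hp => ?_, fun c ω => ?_⟩
  · obtain ⟨p, hp', rfl⟩ := List.mem_map.1 hp
    exact ⟨nor_mul_mem hM (nor_star hg) (hw j p hp').1,
      ((hgC.star' he.2).mul he.2 ⟨(hw j p hp').1.1, (hw j p hp').2⟩).2⟩
  · simp only [hF, Finset.mul_sum, Finset.sum_mul]
    exact Finset.sum_congr rfl fun j _ => conj_prod hM hg c ω (w j) (ha j).1 (hw j)

theorem IsPoly.isField [Fintype L] {μ : L → ℝ} {F : Rand A e L} (hF : IsPoly M F) :
    IsField M A e τ μ F := by
  obtain ⟨ι, _, a, w, ha, hw, hF⟩ := hF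
  intro η hη
  let E := Fintype.equivFin ι
  refine ⟨Fintype.card ι, fun j => a (E.symm j), fun j => (w (E.symm j)).length,
    fun j t => ((w (E.symm j)).get t).1, fun j t => ((w (E.symm j)).get t).2, fun j => ha _,
    fun j t => hw _ _ (List.get_mem _ _), Eventually.of_forall fun c => ?_⟩
  have h0 : ∀ ω : Fin c.n → L, F c ω - ∑ j, a (E.symm j) * (List.ofFn fun t =>
      vee ((w (E.symm j)).get t).1 ((w (E.symm j)).get t).2 c ω).prod = 0 := fun ω => by
    rw [sub_eq_zero, hF, ← E.symm.sum_comp]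
    refine Finset.sum_congr rfl fun j _ => ?_
    conv_lhs => rw [← List.ofFn_get (w (E.symm j)), List.map_ofFn]
    rfl
  simp only [h0, n2, mul_zero, map_zero, Complex.zero_re, Real.sqrt_zero]
  simp [avg, hη.le]

end Vale.Agent.P078.Orth
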