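import Mathlib

/-!
A point of the polytope cut from the simplex by two linear conditions as an average of at most
`r (r + 1)` equally likely points with at most three nonzero coordinates.
-/

noncomputable section

namespace Vale.Agent.P078.Orth

open Finset
open scoped Classical

variable {r : ℕ} (a b : Fin r → ℝ)

/-- The points of the simplex annihilated by `a` and `b`. -/
def Poly (v : Fin r → ℝ) : Prop :=
  (∀ i, 0 ≤ v i) ∧ ∑ i, v i = 1 ∧ ∑ i, v i * a i = 0 ∧ ∑ i, v i * b i = 0

/-- The nonzero coordinates. -/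
def nz (v : Fin r → ℝ) : Finset (Fin r) := {i | v i ≠ 0}

variable {a b}

lemma exists_shorter {p : Fin r → ℝ} (hp : Poly a b p) {d : Fin r → ℝ}
    (hsupp : ∀ i, p i = 0 → d i = 0) (hd : ∃ i, d i < 0) (h1 : ∑ i, d i = 0)
    (ha : ∑ i, d i * a i = 0) (hb : ∑ i, d i * b i = 0) :
    ∃ t : ℝ, 0 < t ∧ Poly a b (p + t • d) ∧ (nz (p + t • d)).card < (nz p).card := by
  set N : Finset (Fin r) := {i | d i < 0} with hN
  have hne : N.Nonempty := let ⟨i, hi⟩ := hd; ⟨i, Finset.mem_filter.2 ⟨Finset.mem_univ i, hi⟩⟩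
  obtain ⟨j, hj, hmin⟩ := N.exists_min_image (fun i => p i / -d i) hne
  have hdj : d j < 0 := (Finset.mem_filter.1 hj).2
  have hpj : 0 < p j := lt_of_le_of_ne (hp.1 j) fun h => hdj.ne (hsupp j h.symm)
  have ht : 0 < p j / -d j := div_pos hpj (neg_pos.2 hdj)
  refine ⟨p j / -d j, ht, ⟨fun i => ?_, ?_, ?_, ?_⟩, ?_⟩
  · simp only [Pi.add_apply, Pi.smul_apply, smul_eq_mul]
    rcases le_or_gt 0 (d i) with h | h
    · exact add_nonneg (hp.1 i) (mul_nonneg ht.le h)
    · have := hmin i (Finset.mem_filter.2 ⟨Finset.mem_univ i, h⟩)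
      rw [le_div_iff₀ (neg_pos.2 h)] at this
      linarith
  · simp only [Pi.add_apply, Pi.smul_apply, smul_eq_mul, Finset.sum_add_distrib, ← Finset.mul_sum,
      hp.2.1, h1, mul_zero, add_zero]
  · simp only [Pi.add_apply, Pi.smul_apply, smul_eq_mul, add_mul, Finset.sum_add_distrib,
      mul_assoc, ← Finset.mul_sum, hp.2.2.1, ha, mul_zero, add_zero]
  · simp only [Pi.add_apply, Pi.smul_apply, smul_eq_mul, add_mul, Finset.sum_add_distrib,
      mul_assoc, ← Finset.mul_sum, hp.2.2.2, hb, mul_zero, add_zero]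
  · refine Finset.card_lt_card (Finset.ssubset_iff_of_subset (fun i hi => ?_) |>.2 ⟨j, ?_, ?_⟩)
    · simp only [nz, Finset.mem_filter, Finset.mem_univ, true_and, Pi.add_apply, Pi.smul_apply,
        smul_eq_mul] at hi ⊢
      intro h
      exact hi (by rw [h, hsupp i h, mul_zero, add_zero])
    · simpa [nz] using hpj.ne'
    · simp only [nz, Finset.mem_filter, Finset.mem_univ, true_and, Pi.add_apply, Pi.smul_apply,
        smul_eq_mul, not_not]
      field_simp [hdj.ne]
      ring

/-- Every point of the polytope is in the convex hull of its points with at most three nonzero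
coordinates. -/
lemma mem_hull_three : ∀ {p : Fin r → ℝ}, Poly a b p →
    p ∈ convexHull ℝ {v | Poly a b v ∧ (nz v).card ≤ 3} := by
  intro p
  induction hn : (nz p).card using Nat.strong_induction_on generalizing p with
  | _ n ih =>
    intro hp
    subst hn
    by_cases h3 : (nz p).card ≤ 3
    · exact subset_convexHull ℝ _ ⟨hp, h3⟩
    push Not at h3
    let F : (↥(nz p) → ℝ) →ₗ[ℝ] (Fin 3 → ℝ) :=
      { toFun := fun d => ![∑ i, d i, ∑ i : ↥(nz p), d i * a i, ∑ i : ↥(nz p), d i * b i]
        map_add' := fun x y => by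
          funext k
          fin_cases k <;> simp [Finset.sum_add_distrib, add_mul]
        map_smul' := fun c x => by
          funext k
          fin_cases k <;> simp [Finset.mul_sum, mul_assoc] }
    obtain ⟨d, hd, hd0⟩ := Submodule.exists_mem_ne_zero_of_ne_bot
      (LinearMap.ker_ne_bot_of_finrank_lt (f := F) (by simpa using h3))
    have hF := LinearMap.mem_ker.1 hd
    set d' : Fin r → ℝ := fun i => if h : i ∈ nz p then d ⟨i, h⟩ else 0 with hd'
    have hsum : ∀ f : Fin r → ℝ, ∑ i, d' i * f i = ∑ i : ↥(nz p), d i * f i := fun f => by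
      rw [← Finset.sum_subset (Finset.subset_univ (nz p)) fun i _ hi => by
        simp [hd', hi], ← Finset.sum_coe_sort]
      exact Finset.sum_congr rfl fun i _ => by simp [hd']
    have h0 : ∑ i, d' i = 0 := by
      have := congrFun hF 0
      simpa [F, ← hsum fun _ => (1 : ℝ)] using
        (show ∑ i, d' i * 1 = 0 by rw [hsum fun _ => 1]; simpa [F] using this)
    have ha : ∑ i, d' i * a i = 0 := by rw [hsum]; simpa [F] using congrFun hF 1
    have hb : ∑ i, d' i * b i = 0 := by rw [hsum]; simpa [F] using congrFun hF 2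
    have hsupp : ∀ i, p i = 0 → d' i = 0 := fun i hi => by simp [hd', nz, hi]
    have hne : d' ≠ 0 := fun h => hd0 (funext fun i => by
      have := congrFun h i
      simpa [hd', i.2] using this)
    have hneg : ∀ f : Fin r → ℝ, f ≠ 0 → ∑ i, f i = 0 → ∃ i, f i < 0 := fun f hf h => by
      by_contra hc
      push Not at hc
      exact hf (funext fun i => (Finset.sum_eq_zero_iff_of_nonneg fun i _ => hc i).1 h i
        (Finset.mem_univ i))
    obtain ⟨t, ht, hp1, hc1⟩ := exists_shorter hp hsupp (hneg d' hne h0) h0 ha hb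
    obtain ⟨s, hs, hp2, hc2⟩ := exists_shorter hp (d := -d') (fun i hi => by simp [hsupp i hi])
      (hneg _ (neg_ne_zero.2 hne) (by simp [h0])) (by simp [h0]) (by simp [ha]) (by simp [hb])
    have e : p = (s / (t + s)) • (p + t • d') + (t / (t + s)) • (p + s • -d') := by
      funext i
      simp only [Pi.add_apply, Pi.smul_apply, smul_eq_mul, Pi.neg_apply]
      field_simp
      ring
    rw [e]
    exact convex_convexHull ℝ _ (ih _ hc1 rfl hp1) (ih _ hc2 rfl hp2) (by positivity)
      (by positivity) (by rw [← add_div, add_comm s t, div_self (by positivity)])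

/-- The uniform point as a nearly exact average of `r (r + 1)` points with at most three nonzero
coordinates. -/
lemma exists_spread (hr : 0 < r) (ha : ∑ i, a i = 0) (hb : ∑ i, b i = 0) :
    ∃ T : Fin (r * (r + 1)) → Fin r → ℝ, (∀ l, Poly a b (T l) ∧ (nz (T l)).card ≤ 3) ∧
      ∀ i, ∑ l, T l i ≤ 2 * (r + 1) := by
  have hr' : (r : ℝ) ≠ 0 := Nat.cast_ne_zero.2 hr.ne'
  have hp : Poly a b (fun _ : Fin r => (1 / r : ℝ)) :=
    ⟨fun _ => by positivity, by simp [hr'], by simp [← Finset.mul_sum, ha],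
      by simp [← Finset.mul_sum, hb]⟩
  obtain ⟨κ, _, y, w, hy, hind, hw, hw1, hwy⟩ :=
    eq_pos_convex_span_of_mem_convexHull (mem_hull_three hp)
  have hk : Fintype.card κ ≤ r + 1 := hind.card_le_finrank_succ.trans
    (Nat.succ_le_succ ((Submodule.finrank_le _).trans (by simp)))
  obtain ⟨j₀⟩ : Nonempty κ := by
    by_contra h
    rw [not_nonempty_iff] at h
    simp at hw1
  set M := r * (r + 1) with hM
  set c : κ → ℕ := fun j => ⌊w j * M⌋₊ with hc
  have hcle : ∀ j, (c j : ℝ) ≤ w j * M := fun j =>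
    Nat.floor_le (mul_nonneg (hw j).le (Nat.cast_nonneg M))
  have hcM : ∑ j, c j ≤ M := by
    have : ((∑ j, c j : ℕ) : ℝ) ≤ M := by
      push_cast
      calc ∑ j, (c j : ℝ) ≤ ∑ j, w j * M := Finset.sum_le_sum fun j _ => hcle j
        _ = M := by rw [← Finset.sum_mul, hw1, one_mul]
    exact_mod_cast this
  have hrest : ((M - ∑ j, c j : ℕ) : ℝ) ≤ r + 1 := by
    have h1 : (M : ℝ) ≤ ∑ j, ((c j : ℝ) + 1) := by
      calc (M : ℝ) = ∑ j, w j * M := by rw [← Finset.sum_mul, hw1, one_mul]
        _ ≤ ∑ j, ((c j : ℝ) + 1) := Finset.sum_le_sum fun j _ =>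
            (Nat.lt_floor_add_one (w j * M)).le
    rw [Finset.sum_add_distrib, Finset.sum_const, nsmul_eq_mul, mul_one, Finset.card_univ] at h1
    rw [Nat.cast_sub hcM]
    push_cast
    have : (Fintype.card κ : ℝ) ≤ (r : ℝ) + 1 := by exact_mod_cast hk
    linarith
  set c' : κ → ℕ := fun j => c j + if j = j₀ then M - ∑ i, c i else 0 with hc'
  have hsum : ∑ j, c' j = M := by
    simp only [hc', Finset.sum_add_distrib, Finset.sum_ite_eq', Finset.mem_univ, if_true]
    omega
  let E : ((j : κ) × Fin (c' j)) ≃ Fin M := Fintype.equivFinOfCardEq (by simp [hsum])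
  have hyP : ∀ j, Poly a b (y j) ∧ (nz (y j)).card ≤ 3 := fun j => hy (Set.mem_range_self j)
  refine ⟨fun l => y (E.symm l).1, fun l => hyP _, fun i => ?_⟩
  rw [E.symm.sum_comp fun x => y x.1 i, Fintype.sum_sigma]
  simp only [Finset.sum_const, Finset.card_univ, Fintype.card_fin, nsmul_eq_mul, hc', Nat.cast_add,
    add_mul, Finset.sum_add_distrib, apply_ite (Nat.cast : ℕ → ℝ), Nat.cast_zero, ite_mul,
    zero_mul, Finset.sum_ite_eq', Finset.mem_univ, if_true]
  have h1 : ∑ j, (c j : ℝ) * y j i ≤ (r + 1 : ℝ) := by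
    calc ∑ j, (c j : ℝ) * y j i ≤ ∑ j, w j * M * y j i :=
          Finset.sum_le_sum fun j _ => mul_le_mul_of_nonneg_right (hcle j) ((hyP j).1.1 i)
      _ = M * (∑ j, w j • y j) i := by
          simp only [Finset.sum_apply, Pi.smul_apply, smul_eq_mul, Finset.mul_sum]
          exact Finset.sum_congr rfl fun j _ => by ring
      _ = r + 1 := by rw [hwy, hM]; push_cast; field_simp
  have h2 : y j₀ i ≤ 1 := by
    rw [← (hyP j₀).1.2.1]
    exact Finset.single_le_sum (fun u _ => (hyP j₀).1.1 u) (Finset.mem_univ i)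
  have h3 := mul_le_mul hrest h2 ((hyP j₀).1.1 i) (by positivity)
  linarith

end Vale.Agent.P078.Orth
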