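import Vale.Agent.P078.MKS.TwoSided.Glue
import Vale.Agent.P078.MKS.Pass
import Vale.Agent.P078.Orth.Random.Spread

/-!
Steps for random passes: many equally likely options in a window, the change of the potential on a
cell, and passes towards a prescribed state.
-/

namespace Vale.Agent.P078.MKS.Op

open Singular Orth
open scoped Classical

variable {H : Type} [NormedAddCommGroup H] [InnerProductSpace ℂ H] [CompleteSpace H]
  {M A : VonNeumannAlgebra H} {e : H →L[ℂ] H} {τ : (H →L[ℂ] H) →ₗ[ℂ] ℂ}
  (hM : IsMASA M A) (he : IsPr A e)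

section Window

variable {D : Gen M A e} {r : ℕ} {χ : Pt A}
  {U : Finset (Pt A)} {R : Pt A → (H →L[ℂ] H)} (hR : IsFrame M e χ U R)
  (hsa : IsSelfAdjoint D.op) (hl : (-1 : ℝ) • e ≤ D.op) (hu : D.op ≤ e)
include hM he hR hsa hl hu

/-- At a vertex with uniform weights there are `r (r + 1)` options with at most three colours and
nearly uniform mean, none of which raises the window sum by more than `8 η`. -/
lemma step_many (hr : 0 < r) {η t g : ℝ} {q : Polynomial ℝ} (hg : 0 < g)
    (hq : ∀ x ∈ Set.Icc (-1 : ℝ) 1, |(Polynomial.derivative q).eval x - deriv (soft t g) x| ≤ η)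
    {S : St A r} (hS : ∀ χ, Ok (S χ)) (hsc : ∀ χ, (S χ).2 = 1) (k : U)
    (hk : (S k).1 = fun _ => (1 / r : ℝ)) :
    ∃ T : Fin (r * (r + 1)) → Fin r → ℝ,
      (∀ l, ((∀ s, 0 ≤ T l s) ∧ ∑ s, T l s = 1) ∧
        ({i | T l i ≠ 0} : Finset (Fin r)).card ≤ 3) ∧
      (∀ s, ∑ l, T l s ≤ 2 * (r + 1)) ∧
      ∀ l, ∑ u, both q D.a D.g χ U R (Function.update S (k : Pt A) (T l, 1)) u ≤
        ∑ u, both q D.a D.g χ U R S u + 8 * η := by
  set X := wsc 1 D.a D.g χ U R S with hXdef
  have hX : X.IsHermitian := wsc_hermitian hM he D hR hsa (.inl rfl)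
  have hp := isProb_wt hS U
  have hb : OpBound X 1 := wsc_opBound hM he D hR hsa hl hu hS (.inl rfl)
  have hneg : OpBound (-X) 1 := fun w => by simpa [Matrix.neg_mulVec] using hb w
  have hzero : ∀ Y : Matrix U U ℂ, Y.IsHermitian →
      ∑ s, tilt Y (wt S U) k t g s = 0 := fun Y hY => by
    have h := sum_tilt_self hY hp k t hg
    simp only [wt, hk, ← Finset.mul_sum] at h
    exact (mul_eq_zero.1 h).resolve_left (by positivity)
  obtain ⟨T, hT, hmean⟩ := exists_spread hr (hzero X hX) (hzero (-X) hX.neg)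
  refine ⟨T, fun l => ⟨⟨(hT l).1.1, (hT l).1.2.1⟩, (hT l).2⟩, hmean, fun l => ?_⟩
  obtain ⟨⟨hv0, hv1, ha, hb'⟩, -⟩ := hT l
  set v := T l
  have hS' : ∀ χ, Ok (Function.update S (k : Pt A) (v, 1) χ) := fun ζ => by
    rcases eq_or_ne ζ (k : Pt A) with rfl | hne
    · rw [Function.update_self]; exact ⟨⟨hv0, hv1⟩, zero_le_one, le_rfl⟩
    · rw [Function.update_of_ne hne]; exact hS ζ
  have e1 : wsc 1 D.a D.g χ U R (Function.update S (k : Pt A) (v, 1)) = X := by
    have hall : ∀ ζ, (Function.update S (k : Pt A) (v, 1) ζ).2 = 1 := fun ζ => by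
      rcases eq_or_ne ζ (k : Pt A) with rfl | hne
      · rw [Function.update_self]
      · rw [Function.update_of_ne hne]; exact hsc ζ
    ext a b
    simp only [hXdef, wsc, Matrix.of_apply, hall, hsc]
  have e2 : wt (Function.update S (k : Pt A) (v, 1)) U = Function.update (wt S U) k v := by
    funext a
    rcases eq_or_ne a k with rfl | hne
    · simp [wt]
    · simp [wt, Function.update_of_ne hne, Function.update_of_ne (Subtype.coe_ne_coe.2 hne)]
  have hv : IsProb (Function.update (wt S U) k v) := e2 ▸ isProb_wt hS' U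
  have hcongr : ∀ u, u ≠ k → Function.update (wt S U) k v u = wt S U u := fun u hu =>
    Function.update_of_ne hu _ _
  have r1 := rootSum_poly_le hX hp hv k hcongr zero_le_one hb hq
    (soft_le_of_tilt hX hp k t hg v hv ha.le)
  have r2 := rootSum_poly_le hX.neg hp hv k hcongr zero_le_one hneg hq
    (soft_le_of_tilt hX.neg hp k t hg v hv hb'.le)
  rw [sum_both hM he hR hsa hl hu hS' q, sum_both hM he hR hsa hl hu hS q, e1, e2]
  linarith

end Window

variable (hτ : IsTrace M e τ) (D : Gen M A e) {n r : ℕ} {q : Polynomial ℝ} (hq : q.natDegree ≤ n)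
  (hr : 0 < r)
include hM he hτ hq hr

/-- The change of the integrated potential when the state changes on a separated cell only. -/
lemma stage_le {K : H →L[ℂ] H} (hK : IsPr A K) (hKe : K * e = K) (hKs : Sep D n K) {S T : St A r}
    (hS : IsState A e S) (hT : IsState A e T) (hTS : ∀ χ, ev χ K ≠ 1 → T χ = S χ) {κ : ℝ}
    (hmove : ∀ c, ev c K = 1 →
      ∑ u, both q D.a D.g c (D.ball c (2 * n)) (rep M c) (Function.update S c (T c)) u ≤
        ∑ u, both q D.a D.g c (D.ball c (2 * n)) (rep M c) S u + κ) :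
    int τ e (fun χ => (pot D n q T χ : ℂ)) ≤
      int τ e (fun χ => (pot D n q S χ : ℂ)) + κ * (τ K).re := by
  obtain ⟨g, hgA, hgint, hgoff, hgval⟩ :=
    change_on_cell hM he hτ D hq hr rep_pot_ok hK hKs hS hT hTS
  rw [hgint]
  have hbound : (τ (g * e)).re ≤ (τ (((κ : ℂ) • K) * e)).re := by
    refine trace_re_le hM he hτ hgA (csmul_mem _ hK.1) fun c _ => ?_
    rw [ev_smul c _ hK.1]
    by_cases hc1 : ev c K = 1
    · rw [hc1, mul_one, Complex.ofReal_re, hgval c hc1]
      have hoff : ∀ η, D.Reaches (2 * n) c η → η ≠ c → T η = S η := fun η hη hne =>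
        hTS η fun hu => hne (hKs c η hc1 hu hη)
      rw [← window_diff hM he D hS.1 hT.1 hq hoff]
      have heq : ∀ u : D.ball c (2 * n), T u = Function.update S c (T c) u := fun u => by
        by_cases huc : (u : Pt A) = c
        · simp only [huc, Function.update_self]
        · rw [Function.update_of_ne huc]
          exact hoff u ((mem_ball D).1 u.2) huc
      simp only [fun u => both_congr_fun q D.a D.g c (rep M c) heq u]
      linarith [hmove c hc1]
    · rw [hgoff c hc1, (ev_proj c hK).resolve_right hc1, mul_zero]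
  rw [smul_mul_assoc, hKe, map_smul, smul_eq_mul, Complex.re_ofReal_mul] at hbound
  linarith

omit hτ hq hr in
/-- A state which agrees with `T` on a union of cells and with `S` elsewhere. -/
lemma isState_if {K : H →L[ℂ] H} (hK : IsPr A K) {S T : St A r} (hS : IsState A e S)
    (hT : IsState A e T) : IsState A e fun χ => if ev χ K = 1 then T χ else S χ := by
  refine ⟨fun χ => ?_, fun s => ?_, ?_⟩
  · show Ok (if ev χ K = 1 then T χ else S χ)
    split_ifs
    exacts [hT.1 χ, hS.1 χ]
  · have := rep_ite hK (hT.2.1 s) (hS.2.1 s)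
    convert this using 1
    funext χ
    beta_reduce
    split_ifs <;> rfl
  · have := rep_ite hK hT.2.2 hS.2.2
    convert this using 1
    funext χ
    beta_reduce
    split_ifs <;> rfl

/-- A pass towards a prescribed state. -/
lemma pass_fixed {S T : St A r} (hS : IsState A e S) (hT : IsState A e T) {κ : ℝ}
    (hmove : ∀ S' : St A r, IsState A e S' → (∀ χ, S' χ = S χ ∨ S' χ = T χ) →
      ∀ (χ : Pt A) (U : Finset (Pt A)) (R : Pt A → (H →L[ℂ] H)), IsFrame M e χ U R →
        ∀ k : U, S' k = S k →
          ∑ u, both q D.a D.g χ U R (Function.update S' (k : Pt A) (T k)) u ≤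
            ∑ u, both q D.a D.g χ U R S' u + κ) :
    int τ e (fun χ => (pot D n q T χ : ℂ)) ≤
      int τ e (fun χ => (pot D n q S χ : ℂ)) + κ * (τ e).re := by
  obtain ⟨N, E, hE, hEs⟩ := exists_sep_cells hM he D n
  have hEe : ∀ k, E k * e = E k := fun k => (hE.mul_e k).2
  suffices h : ∀ s : Finset (Fin N), IsPr A (∑ k ∈ s, E k) ∧
      int τ e (fun χ => (pot D n q (fun η => if ev η (∑ k ∈ s, E k) = 1 then T η else S η) χ : ℂ)) ≤
        int τ e (fun χ => (pot D n q S χ : ℂ)) + κ * ∑ k ∈ s, (τ (E k)).re by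
    obtain ⟨hpr, hint⟩ := h Finset.univ
    rw [hE.2.2] at hint
    rw [← Complex.re_sum, ← map_sum, hE.2.2] at hint
    refine le_trans (int_mono hM he hτ (rep_pot_ok H M A e hM he D n q hq r hr T hT)
      (rep_pot_ok H M A e hM he D n q hq r hr _ (isState_if hM he (K := e) he hS hT))
      fun χ hχ => le_of_eq ?_) hint
    refine congrArg (fun x : ℝ => ((x : ℂ)).re) (pot_congr hM he D (fun η => ?_) hT.1 hq fun η hη => ?_)
    · show Ok (if ev η e = 1 then T η else S η)
      split_ifs
      exacts [hT.1 η, hS.1 η]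
    · exact (if_pos (reaches_ev hM he D hη).2).symm
  intro s
  induction s using Finset.induction_on with
  | empty =>
    refine ⟨⟨by simp, by simp [IsStarProjection.zero]⟩, le_of_eq ?_⟩
    simp [ev_zero]
  | insert k s hks ih =>
    obtain ⟨hpr, hint⟩ := ih
    have hdis : ∀ {η : Pt A}, ev η (E k) = 1 → ev η (∑ i ∈ s, E i) = 0 := fun {η} hη => by
      rw [ev_sum η _ _ fun i _ => (hE.1 i).1]
      refine Finset.sum_eq_zero fun i hi => ?_
      have := congrArg (ev η) (hE.2.1 i k fun h => hks (h ▸ hi))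
      rwa [ev_mul η (hE.1 i).1 (hE.1 k).1, hη, mul_one, ev_zero] at this
    have hev : ∀ η, ev η (∑ i ∈ insert k s, E i) = ev η (E k) + ev η (∑ i ∈ s, E i) := fun η => by
      rw [Finset.sum_insert hks, ev_add η (hE.1 k).1 (sum_mem fun i _ => (hE.1 i).1)]
    have hnew : IsPr A (∑ i ∈ insert k s, E i) :=
      isPr_of_ev hM.2.1 (sum_mem fun i _ => (hE.1 i).1) fun η => by
        rw [hev]
        rcases ev_proj η (hE.1 k) with h | h
        · rw [h, zero_add]; exact ev_proj η hpr
        · rw [h, hdis h, add_zero]; exact Or.inr rfl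
    refine ⟨hnew, ?_⟩
    set S₁ : St A r := fun η => if ev η (∑ i ∈ s, E i) = 1 then T η else S η with hS₁
    set S₂ : St A r := fun η => if ev η (∑ i ∈ insert k s, E i) = 1 then T η else S η with hS₂
    have h1 : IsState A e S₁ := isState_if hM he hpr hS hT
    have hle := stage_le hM he hτ D hq hr (hE.1 k) (hEe k) (hEs k) h1
      (isState_if hM he hnew hS hT) (κ := κ) (fun η hη => by
        have h0 := (ev_proj η (hE.1 k)).resolve_right hη
        simp only [hS₁, hev, h0, zero_add]) fun c hc => by
        have hce : ev c e = 1 := by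
          have := congrArg (ev c) (hEe k)
          rwa [ev_mul c (hE.1 k).1 he.1, hc, one_mul] at this
        have e1 : S₂ c = T c := by
          simp only [hS₂, hev, hc, hdis hc, add_zero, if_true]
        rw [show (if ev c (∑ i ∈ insert k s, E i) = 1 then T c else S c) = T c from e1]
        exact hmove S₁ h1 (fun η => by
            by_cases h : ev η (∑ i ∈ s, E i) = 1
            · exact Or.inr (by simp only [hS₁, h, if_true])
            · exact Or.inl (by simp only [hS₁, h, if_false]))
          c _ _ (frame_ball hM he D c (2 * n))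
          ⟨c, (mem_ball D).2 (reaches_self hM he D hce _)⟩
          (by simp only [hS₁, hdis hc, zero_ne_one, if_false])
    rw [Finset.sum_insert hks]
    linarith

end Vale.Agent.P078.MKS.Op
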